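import Crest.Agent.X262.Tree87.T1
import Crest.Agent.X262.Vb.Cfg
import Crest.Agent.X262.Tree87.Lin
import Crest.Agent.X262.Tree87.TL

-- ▼ part X262/Tree87/T2
section

/-!
Row 262, Tree87, part T2: saturation for the range of a matrix of constant rank; substitution of
the map of a vertex into multihomogeneous polynomials.
-/

set_option autoImplicit false

noncomputable section

namespace Crest.Agent.X262.Tree87

open Polynomial Crest.Agent.X262.Bub96 Crest.Agent.X262.Bub96.Tr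

section gen

variable {k : Type*} [Field k] {J : Type*} [Fintype J] {io : J → Type*} {A B : Type*}

theorem isSec_of_same {κ : J → ℕ} : ∀ {t : Tr k J io}, t.OK → ∀ {s : t.Vx → k[X]},
    (∀ v, (s v).natDegree ≤ dot κ (t.vd v)) →
    (∀ x y, t.Same x y → val κ t s x = val κ t s y) → t.IsSec κ s
  | leaf _ _, _, _, h, _ => h ()
  | glue T p S, ht, _, h, h' =>
    ⟨isSec_of_same ht.1 (fun v => h (Sum.inl v)) fun _ _ hxy => h' _ _ (hxy.inl p S),
      isSec_of_same ht.2.1 (fun v => h (Sum.inr v)) fun _ _ hxy => h' _ _ (hxy.inr T p),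
      (h' _ _ (same_node ht)).symm⟩

theorem same_ev {t : Tr k J io} {x y : t.Pt} (h : t.Same x y) : t.ev x = t.ev y :=
  funext fun j => funext fun i => h.1 j i

theorem same_vv {t : Tr k J io} {x y : t.Pt} (h : t.Same x y) {kk : A → J → ℕ}
    {s : t.Vx → A → k[X]} (hs : s ∈ TS kk t) : vv kk t x s = vv kk t y s :=
  funext fun a => by rw [vv_eq_val, vv_eq_val]; exact h.2 _ _ (hs a)

/-- the vector `τ` and `n` columns of `M` -/
def aug {R : Type*} {n : ℕ} (τ : B → R) (M : Matrix B A R) (a : Fin n → A) :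
    Fin (n + 1) → B → R := Fin.cons τ fun j b => M b (a j)

theorem minor_aug_eq_zero [Fintype A] {n : ℕ} {M : Matrix B A k} {τ : B → k}
    (hn : Module.finrank k (LinearMap.range M.mulVecLin) = n)
    (hτ : τ ∈ LinearMap.range M.mulVecLin) (a : Fin n → A) (b : Fin (n + 1) → B) :
    minor (aug τ M a) b = 0 := by
  classical
  by_contra h
  have h1 := finrank_span_eq_card (linearIndependent_of_minor h)
  have h2 : Submodule.span k (Set.range (aug τ M a)) ≤ LinearMap.range M.mulVecLin := by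
    rw [Submodule.span_le]
    rintro _ ⟨i, rfl⟩
    refine Fin.cases hτ (fun j => ⟨Pi.single (a j) 1, ?_⟩) i
    funext b; simp [aug, Matrix.mulVec, dotProduct, Pi.single_apply]
  have h3 := Submodule.finrank_mono h2
  rw [h1, hn, Fintype.card_fin] at h3
  omega

theorem mem_range_of_minor [Fintype A] [Fintype B] {n : ℕ} {M : Matrix B A k} {τ : B → k}
    (hn : Module.finrank k (LinearMap.range M.mulVecLin) = n)
    (h : ∀ (a : Fin n → A) (b : Fin (n + 1) → B), minor (aug τ M a) b = 0) :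
    τ ∈ LinearMap.range M.mulVecLin := by
  classical
  rw [Matrix.range_mulVecLin] at hn ⊢
  obtain ⟨κ, a, ha, hsp, hli⟩ := exists_linearIndependent' k M.col
  have : Finite κ := Finite.of_injective a ha
  have := Fintype.ofFinite κ
  have h2 : Fintype.card κ = n := by
    rw [linearIndependent_iff_card_eq_finrank_span.1 hli, Set.finrank, hsp, hn]
  let ε : Fin n ≃ κ := (Fintype.equivFinOfCardEq h2).symm
  have h3 : LinearIndependent k fun (j : Fin n) (b : B) => M b ((a ∘ ε) j) :=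
    hli.comp ε ε.injective
  by_contra hτ
  have h4 : LinearIndependent k (aug τ M (a ∘ ε)) := by
    refine linearIndependent_finCons.2 ⟨h3, fun h5 => hτ ?_⟩
    exact Submodule.span_mono (by rintro _ ⟨j, rfl⟩; exact ⟨_, rfl⟩) h5
  obtain ⟨b, hb⟩ := exists_minor_ne_zero h4
  exact hb (h _ b)

/-- (SAT) for the range of a matrix of constant rank `n` -/
theorem HM.sat_range [Fintype A] [Fintype B] {kk' : B → J → ℕ} {kk : A → J → ℕ}
    {M : ((j : J) → io j → k) → Matrix B A k} {t : Tr k J io} {P : t.Vx → Matrix B A k[X]}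
    (ht : t.OK) (h : HM kk' kk M t P) (hle : ∀ x b a, M (t.ev x) b a ≠ 0 → kk a ≤ kk' b) {n : ℕ}
    (hn : ∀ x, Module.finrank k (LinearMap.range (M (t.ev x)).mulVecLin) = n) {Y : Set t.Pt}
    (hY : ∀ (b : Fin (n + 1) → B) κ, κ ≤ ∑ i, kk' (b i) → t.Norming κ Y)
    {τ : t.Vx → B → k[X]} (hτ : τ ∈ TS kk' t)
    (h0 : ∀ x ∈ Y, vv kk' t x τ ∈ LinearMap.range (M (t.ev x)).mulVecLin) :
    τ ∈ ES kk' t fun y => LinearMap.range (M y).mulVecLin := by
  classical
  refine mem_ES.2 ⟨hτ, fun x => mem_range_of_minor (hn x) fun a b => ?_⟩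
  by_cases hab : ∑ j, kk (a j) ≤ ∑ i, kk' (b i)
  · set κ := ∑ i, kk' (b i) - ∑ j, kk (a j) with hκ
    have hd : ∀ v, (dot κ (t.vd v) : ℤ) =
        ∑ i, (Fin.cons 0 (fun j => -vdz kk t v (a j)) : Fin (n + 1) → ℤ) i +
          ∑ i, vdz kk' t v (b i) := by
      intro v
      rw [Fin.sum_univ_succ]
      simp only [Fin.cons_zero, Fin.cons_succ, vdz, dot, zero_add, Finset.sum_neg_distrib]
      push_cast
      rw [Finset.sum_comm (s := Finset.univ) (t := Finset.univ)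
          (f := fun j l => (kk (a j) l : ℤ) * t.vd v l),
        Finset.sum_comm (s := Finset.univ) (t := Finset.univ)
          (f := fun i l => (kk' (b i) l : ℤ) * t.vd v l), neg_add_eq_sub,
        ← Finset.sum_sub_distrib]
      refine Finset.sum_congr rfl fun l _ => ?_
      have h1 := hab l
      simp only [Finset.sum_apply] at h1
      rw [← Finset.sum_mul, ← Finset.sum_mul, ← sub_mul, hκ, Pi.sub_apply, Finset.sum_apply,
        Finset.sum_apply, Nat.cast_sub h1]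
      push_cast; rfl
    have hm : ∀ v, DL (dot κ (t.vd v)) (minor (aug (τ v) (P v) a) b) ∧ ∀ p,
        ev (dot κ (t.vd v)) p (minor (aug (τ v) (P v) a) b) =
          minor (aug (vv kk' t (v, p) τ) (M (t.ev (v, p))) a) b := by
      intro v
      have h1 := ev_minor (e := vdz kk' t v) (v := aug (τ v) (P v) a)
        (d := Fin.cons 0 fun j => -vdz kk t v (a j)) (fun i => Fin.cases
          (fun b => by simpa [aug] using TS.dl hτ v b)
          (fun j b => by
            simp only [aug, Fin.cons_succ, tw_apply, neg_add_eq_sub]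
            exact (h v).1 b (a j)) i) b
      rw [← hd v] at h1
      refine ⟨h1.1, fun p => (h1.2 p).trans ?_⟩
      congr 1
      funext i
      refine Fin.cases ?_ (fun j => ?_) i
      · simp only [aug, Fin.cons_zero, tw_zero]; rfl
      · funext b
        simp only [aug, Fin.cons_succ, evv_apply, tw_apply, neg_add_eq_sub]
        exact congrFun (congrFun ((h v).2 p) b) (a j)
    have hval : ∀ y, val κ t (fun v => minor (aug (τ v) (P v) a) b) y =
        minor (aug (vv kk' t y τ) (M (t.ev y)) a) b := fun y =>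
      (ev_eq_hv _ _ _).symm.trans ((hm y.1).2 y.2)
    have hsec : t.IsSec κ fun v => minor (aug (τ v) (P v) a) b :=
      isSec_of_same ht (fun v => DL_nat.1 (hm v).1) fun x y hxy => by
        rw [hval, hval, same_ev hxy, same_vv hxy hτ]
    have h1 := hY b κ (fun l => Nat.sub_le _ _) _ hsec fun y hy => by
      rw [hval]; exact minor_aug_eq_zero (hn y) (h0 y hy) a b
    rw [← hval, h1, val_zero]
  · unfold minor
    rw [← Matrix.det_transpose, Matrix.det_apply']
    refine Finset.sum_eq_zero fun σ _ => mul_eq_zero_of_right _ ?_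
    by_contra h1
    apply hab
    have h2 : ∀ j, kk (a j) ≤ kk' (b (σ j.succ)) := fun j =>
      hle x _ _ (Finset.prod_ne_zero_iff.1 h1 j.succ (Finset.mem_univ _))
    rw [← Equiv.sum_comp σ fun i => kk' (b i), Fin.sum_univ_succ]
    exact (Finset.sum_le_sum fun j _ => h2 j).trans le_add_self

end gen

/-! ### substitution -/

open Crest.Agent.X262.Vb

variable {J : Type} [Fintype J] [DecidableEq J] {io : J → Type} [∀ j, Fintype (io j)]
  [∀ j, DecidableEq (io j)] {k : Type} [Field k] [Algebra ℂ k]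

/-- multihomogeneous of integral multidegree -/
def MZ (q : MvPolynomial (Vr io) ℂ) (κ : J → ℤ) : Prop :=
  q.IsWeightedHomogeneous (fun v => (Pi.single v.1 1 : J → ℤ)) κ

omit [Fintype J] [∀ j, Fintype (io j)] [∀ j, DecidableEq (io j)] in
theorem weight_cast (s : Vr io →₀ ℕ) (j : J) :
    Finsupp.weight (fun v : Vr io => (Pi.single v.1 1 : J → ℤ)) s j =
      (Finsupp.weight (fun v : Vr io => (Pi.single v.1 1 : J → ℕ)) s j : ℕ) := by
  simp only [Finsupp.weight_apply, Finsupp.sum, Finset.sum_apply, Pi.smul_apply, Pi.single_apply]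
  push_cast
  exact Finset.sum_congr rfl fun v _ => by split_ifs <;> simp

omit [Fintype J] [∀ j, Fintype (io j)] [∀ j, DecidableEq (io j)] in
theorem MZ.of_MH {q : MvPolynomial (Vr io) ℂ} {κ : J → ℕ} (h : MH q κ) :
    MZ q fun j => κ j := fun s hs => funext fun j => by rw [weight_cast, h hs]

omit [Fintype J] [∀ j, Fintype (io j)] [∀ j, DecidableEq (io j)] in
theorem MZ.zero (κ : J → ℤ) : MZ (0 : MvPolynomial (Vr io) ℂ) κ := fun _ h => (h rfl).elim

omit [Fintype J] [∀ j, Fintype (io j)] [∀ j, DecidableEq (io j)] in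
theorem MZ.pderiv {q : MvPolynomial (Vr io) ℂ} {κ : J → ℤ} (h : MZ q κ) (v : Vr io) :
    MZ (MvPolynomial.pderiv v q) (κ - Pi.single v.1 1) :=
  MvPolynomial.IsWeightedHomogeneous.pderiv h (sub_add_cancel _ _)

omit [Fintype J] [∀ j, Fintype (io j)] [∀ j, DecidableEq (io j)] in
theorem MZ.nonneg {q : MvPolynomial (Vr io) ℂ} {κ : J → ℤ} (h : MZ q κ) (h0 : q ≠ 0) (j : J) :
    0 ≤ κ j := by
  obtain ⟨s, hs⟩ := MvPolynomial.ne_zero_iff.1 h0
  rw [← h hs, weight_cast]; exact Int.natCast_nonneg _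

omit [∀ j, DecidableEq (io j)] in
theorem sum_weight {M : Type*} [AddCommGroup M] (s : Vr io →₀ ℕ) (f : J → M) :
    ∑ j, Finsupp.weight (fun v : Vr io => (Pi.single v.1 1 : J → ℤ)) s j • f j =
      ∑ v, s v • f v.1 := by
  simp only [Finsupp.weight_apply]
  rw [Finsupp.sum_fintype _ _ (by simp)]
  simp only [Finset.sum_apply, Pi.smul_apply, Pi.single_apply, Finset.sum_smul]
  rw [Finset.sum_comm]
  refine Finset.sum_congr rfl fun v _ => ?_
  simp [ite_smul]

/-- substitution of forms -/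
def sb (g : (j : J) → io j → k[X]) : MvPolynomial (Vr io) ℂ →ₐ[ℂ] k[X] :=
  MvPolynomial.aeval fun v : Vr io => g v.1 v.2

omit [∀ j, DecidableEq (io j)] in
theorem MZ.sb {q : MvPolynomial (Vr io) ℂ} {κ : J → ℤ} (h : MZ q κ) {d : J → ℕ}
    {g : (j : J) → io j → k[X]} (hg : ∀ j i, (g j i).natDegree ≤ d j) :
    DL (∑ j, κ j * d j) (sb g q) ∧
      ∀ p, ev (∑ j, κ j * d j) p (sb g q) = pv (fun j i => hv (d j) (g j i) p) q := by
  have key : ∀ s ∈ q.support, DL (∑ j, κ j * d j) (∏ v : Vr io, g v.1 v.2 ^ s v) ∧ ∀ p,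
      ev (∑ j, κ j * d j) p (∏ v : Vr io, g v.1 v.2 ^ s v) =
        ∏ v : Vr io, hv (d v.1) (g v.1 v.2) p ^ s v := by
    intro s hs
    have h1 : ∑ j, κ j * d j = ∑ v : Vr io, ∑ _i ∈ Finset.range (s v), (d v.1 : ℤ) := by
      have := sum_weight s fun j => (d j : ℤ)
      rw [h (MvPolynomial.mem_support_iff.1 hs)] at this
      simpa using this
    have h2 : ∀ v : Vr io, DL (∑ _i ∈ Finset.range (s v), (d v.1 : ℤ)) (g v.1 v.2 ^ s v) ∧ ∀ p,
        ev (∑ _i ∈ Finset.range (s v), (d v.1 : ℤ)) p (g v.1 v.2 ^ s v) =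
          hv (d v.1) (g v.1 v.2) p ^ s v := by
      intro v
      have := ev_prod (Finset.range (s v)) (fun _ => (d v.1 : ℤ)) (fun _ => g v.1 v.2)
        fun _ _ => DL_nat.2 (hg _ _)
      simpa only [Finset.prod_const, Finset.card_range, ev_eq_hv] using this
    rw [h1]
    have := ev_prod Finset.univ _ _ fun v _ => (h2 v).1
    exact ⟨this.1, fun p => (this.2 p).trans (Finset.prod_congr rfl fun v _ => (h2 v).2 p)⟩
  have h3 : Tree87.sb g q = ∑ s ∈ q.support,
      algebraMap ℂ k (q.coeff s) • ∏ v : Vr io, g v.1 v.2 ^ s v := by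
    rw [Tree87.sb, MvPolynomial.aeval_def, MvPolynomial.eval₂_eq']
    exact Finset.sum_congr rfl fun s _ => by rw [smul_eq_C_mul]; rfl
  rw [h3]
  refine ⟨DL.sum fun s hs => (key s hs).1.smul _, fun p => ?_⟩
  rw [map_sum, pv, MvPolynomial.aeval_def, MvPolynomial.eval₂_eq']
  exact Finset.sum_congr rfl fun s hs => by rw [map_smul, (key s hs).2, smul_eq_mul]

omit [∀ j, DecidableEq (io j)] in
/-- scaling of the coordinates -/
theorem MZ.pv_scl {q : MvPolynomial (Vr io) ℂ} {κ : J → ℤ} (h : MZ q κ) {c : J → k}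
    (hc : ∀ j, c j ≠ 0) (y : Pnt io k) :
    pv (fun j i => c j * y j i) q = (∏ j, c j ^ κ j) * pv y q := by
  simp only [pv, MvPolynomial.aeval_def, MvPolynomial.eval₂_eq', Finset.mul_sum]
  refine Finset.sum_congr rfl fun s hs => ?_
  have h1 := sum_weight s fun j => Additive.ofMul (Units.mk0 (c j) (hc j))
  rw [h (MvPolynomial.mem_support_iff.1 hs)] at h1
  have h2 := congrArg (fun u : Additive kˣ => ((Additive.toMul u : kˣ) : k)) h1
  simp only [toMul_sum, toMul_zsmul, toMul_nsmul, toMul_ofMul, Units.coe_prod,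
    Units.val_zpow_eq_zpow_val, Units.val_pow_eq_pow_val, Units.val_mk0] at h2
  rw [h2]
  simp only [mul_pow, Finset.prod_mul_distrib]
  ring

omit [∀ j, DecidableEq (io j)] in
/-- a matrix of multihomogeneous polynomials along a tree -/
theorem hm_sb {A B : Type} [Fintype A] {kk' : B → J → ℕ} {kk : A → J → ℕ}
    {ρ : B → A → MvPolynomial (Vr io) ℂ}
    (hρ : ∀ b a, MZ (ρ b a) fun j => (kk' b j : ℤ) - kk a j) {t : Tr k J io} (ht : t.OK) :
    HM kk' kk (fun y b a => pv y (ρ b a)) t fun v b a => sb (t.vg v) (ρ b a) := by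
  intro v
  have h1 : ∀ b a, vdz kk' t v b - vdz kk t v a =
      ∑ j, ((kk' b j : ℤ) - kk a j) * t.vd v j := fun b a => by
    simp only [vdz, dot, sub_mul, Finset.sum_sub_distrib]; push_cast; rfl
  refine ⟨fun b a => ?_, fun p => funext fun b => funext fun a => ?_⟩
  · rw [h1]; exact ((hρ b a).sb (ht.natDegree_le v)).1
  · simp only [evM]
    rw [h1]; exact ((hρ b a).sb (ht.natDegree_le v)).2 p

omit [∀ j, DecidableEq (io j)] in
/-- a multihomogeneous polynomial gives a section on the tree -/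
theorem isSec_sb {q : MvPolynomial (Vr io) ℂ} {κ : J → ℕ} (h : MH q κ) {t : Tr k J io}
    (ht : t.OK) : (t.IsSec κ fun v => sb (t.vg v) q) ∧
      ∀ x, val κ t (fun v => sb (t.vg v) q) x = pv (t.ev x) q := by
  have h1 : ∀ v, (∑ j, (κ j : ℤ) * t.vd v j) = (dot κ (t.vd v) : ℕ) := fun v => by
    simp only [dot]; push_cast; rfl
  have h2 := fun v => (MZ.of_MH h).sb (ht.natDegree_le v)
  simp only [h1] at h2
  have h3 : ∀ x, val κ t (fun v => sb (t.vg v) q) x = pv (t.ev x) q := fun x =>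
    (ev_eq_hv _ _ _).symm.trans ((h2 x.1).2 x.2)
  exact ⟨isSec_of_same ht (fun v => DL_nat.1 (h2 v).1) fun x y hxy => by
    rw [h3, h3, same_ev hxy], h3⟩

end Crest.Agent.X262.Tree87
end
end

-- ▼ part X262/Tree87/T3

/-!
Row 262, Tree87, part T3: spaces of sections with values in the range of a homogeneous matrix,
on configurations; behaviour under extension, gauge, reduction; description on a tree.
-/

set_option autoImplicit false
set_option linter.unusedSectionVars false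

noncomputable section

namespace Crest.Agent.X262.Tree87

open Polynomial Crest.Agent.X262.Bub96 Crest.Agent.X262.Bub96.Tr Crest.Agent.X262.Vb
open Crest.Agent.X277 Crest.Agent.X277.BD

variable {J : Type} [Fintype J] [DecidableEq J] {io : J → Type} [∀ j, Fintype (io j)]
  [∀ j, DecidableEq (io j)] {A B I : Type} [Fintype A] [Fintype B] [Fintype I]
  {E E' : Type} [Field E] [Algebra ℂ E] [Field E'] [Algebra ℂ E']

/-- value of a matrix of polynomials at a point -/
def pM (ρ : B → A → MvPolynomial (Vr io) ℂ) (y : Pnt io E) : Matrix B A E :=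
  fun b a => pv y (ρ b a)

/-- the range of a matrix of polynomials at a point -/
def pR (ρ : B → A → MvPolynomial (Vr io) ℂ) (y : Pnt io E) : Submodule E (B → E) :=
  LinearMap.range (pM ρ y).mulVecLin

/-- `ρ` is a map `⊕ O(kk a) → ⊕ O(kk' b)` -/
def HZ (kk' : B → J → ℕ) (kk : A → J → ℕ) (ρ : B → A → MvPolynomial (Vr io) ℂ) : Prop :=
  ∀ b a, MZ (ρ b a) fun j => (kk' b j : ℤ) - kk a j

/-- sections of `⊕ O(kk' b)` with values in the range of `ρ` -/
def Rb (kk' : B → J → ℕ) (ρ : B → A → MvPolynomial (Vr io) ℂ) (z : Cfg io I E) :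
    Submodule E (B × I → E) :=
  (⨅ b, (z.V (kk' b)).comap (LinearMap.funLeft E E fun q => (b, q))) ⊓
    ⨅ q, (pR ρ (z.y q)).comap (LinearMap.funLeft E E fun b => (b, q))

theorem mem_Rb {kk' : B → J → ℕ} {ρ : B → A → MvPolynomial (Vr io) ℂ} {z : Cfg io I E}
    {σ : B × I → E} : σ ∈ Rb kk' ρ z ↔
      (∀ b, (fun q => σ (b, q)) ∈ z.V (kk' b)) ∧ ∀ q, (fun b => σ (b, q)) ∈ pR ρ (z.y q) := by
  simp only [Rb, Submodule.mem_inf, Submodule.mem_iInf]; rfl

theorem pv_map (α : E →ₐ[ℂ] E') (y : Pnt io E) (q : MvPolynomial (Vr io) ℂ) :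
    pv (fun j i => α (y j i)) q = α (pv y q) := by
  unfold pv
  rw [← AlgHom.comp_apply, MvPolynomial.comp_aeval]

theorem pR_map (α : E →ₐ[ℂ] E') (ρ : B → A → MvPolynomial (Vr io) ℂ) (y : Pnt io E) :
    pR ρ (fun j i => α (y j i)) = mapS α (pR ρ y) := by
  rw [pR, pR, mapS_range]
  congr 2
  funext b a
  exact pv_map α y _

theorem Rb_map (α : E →ₐ[ℂ] E') (kk' : B → J → ℕ) (ρ : B → A → MvPolynomial (Vr io) ℂ)
    (z : Cfg io I E) : Rb kk' ρ (z.map α) = mapS α (Rb kk' ρ z) := by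
  simp only [Rb, mapS_inf, mapS_iInf, mapS_comap, ← pR_map]
  rfl

theorem chr_ne' {c : J → E} (hc : ∀ j, c j ≠ 0) (κ : J → ℕ) : ∏ j, c j ^ κ j ≠ 0 :=
  Finset.prod_ne_zero_iff.2 fun j _ => pow_ne_zero _ (hc j)

variable {kk' : B → J → ℕ} {kk : A → J → ℕ} {ρ : B → A → MvPolynomial (Vr io) ℂ}

theorem HZ.pM_scl (h : HZ kk' kk ρ) {c : J → E} (hc : ∀ j, c j ≠ 0) (y : Pnt io E) (b : B)
    (a : A) : pM ρ (fun j i => c j * y j i) b a * ∏ j, c j ^ kk a j =
      (∏ j, c j ^ kk' b j) * pM ρ y b a := by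
  rw [pM, (h b a).pv_scl hc, mul_right_comm, ← Finset.prod_mul_distrib]
  congr 1
  refine Finset.prod_congr rfl fun j _ => ?_
  rw [← zpow_natCast, ← zpow_natCast, ← zpow_add₀ (hc j), sub_add_cancel]

theorem HZ.mulVec_scl (h : HZ kk' kk ρ) {c : J → E} (hc : ∀ j, c j ≠ 0) (y : Pnt io E)
    (u : A → E) : (pM ρ fun j i => c j * y j i).mulVec (fun a => (∏ j, c j ^ kk a j) * u a) =
      fun b => (∏ j, c j ^ kk' b j) * (pM ρ y).mulVec u b := by
  funext b
  simp only [Matrix.mulVec, dotProduct, Finset.mul_sum]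
  exact Finset.sum_congr rfl fun a _ => by rw [← mul_assoc, h.pM_scl hc, mul_assoc]

theorem HZ.pR_scl (h : HZ kk' kk ρ) {c : J → E} (hc : ∀ j, c j ≠ 0) (y : Pnt io E) :
    pR ρ (fun j i => c j * y j i) = sclS (fun b => ∏ j, c j ^ kk' b j) (pR ρ y) := by
  ext w
  constructor
  · rintro ⟨u, rfl⟩
    refine ⟨_, ⟨fun a => (∏ j, c j ^ kk a j)⁻¹ * u a, rfl⟩, ?_⟩
    have := h.mulVec_scl hc y fun a => (∏ j, c j ^ kk a j)⁻¹ * u a
    simp only [mul_inv_cancel_left₀ (chr_ne' hc _)] at this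
    exact this.symm
  · rintro ⟨_, ⟨u, rfl⟩, rfl⟩
    exact ⟨_, h.mulVec_scl hc y u⟩

theorem HZ.Rb_gau (h : HZ kk' kk ρ) {c : I → J → E} (hc : ∀ q j, c q j ≠ 0) (z : Cfg io I E) :
    Rb kk' ρ (z.gau c) = sclS (fun x => ∏ j, c x.2 j ^ kk' x.1 j) (Rb kk' ρ z) := by
  ext w
  rw [mem_sclS_iff fun x : B × I => chr_ne' (hc x.2) (kk' x.1), mem_Rb, mem_Rb]
  refine and_congr (forall_congr' fun b => ?_) (forall_congr' fun q => ?_)
  · exact mem_sclS_iff fun q => chr_ne' (hc q) _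
  · change _ ∈ pR ρ (fun j i => c q j * z.y q j i) ↔ _
    rw [h.pR_scl (hc q)]
    exact mem_sclS_iff fun b => chr_ne' (hc q) _

theorem HZ.le_of_ne (h : HZ kk' kk ρ) {y : Pnt io E} {b : B} {a : A} (h0 : pM ρ y b a ≠ 0) :
    kk a ≤ kk' b := fun j => by
  have := (h b a).nonneg (fun h1 => h0 (by rw [pM, h1, pv, map_zero])) j
  change kk a j ≤ kk' b j
  omega

/-! ### reduction -/

variable {p : Pl ℂ E ℂ E'}

theorem pv_red (hp : ∀ c : ℂ, p.r (algebraMap ℂ E c) = algebraMap ℂ E' c) {y : Pnt io E}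
    (hy : ∀ j i, y j i ∈ p.V.1) (q : MvPolynomial (Vr io) ℂ) :
    pv y q ∈ p.V.1 ∧ p.r (pv y q) = pv (redP p y) q := by
  unfold pv
  induction q using MvPolynomial.induction_on with
  | C a => simp only [MvPolynomial.aeval_C]; exact ⟨p.V.2 a, hp a⟩
  | add a b ha hb =>
    simp only [map_add]
    exact ⟨add_mem ha.1 hb.1, by rw [Pl.r_add ha.1 hb.1, ha.2, hb.2]⟩
  | mul_X a v ha =>
    simp only [map_mul, MvPolynomial.aeval_X]
    exact ⟨mul_mem ha.1 (hy _ _), by rw [Pl.r_mul ha.1 (hy _ _), ha.2]; rfl⟩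

theorem pM_red (hp : ∀ c : ℂ, p.r (algebraMap ℂ E c) = algebraMap ℂ E' c) {y : Pnt io E}
    (hy : ∀ j i, y j i ∈ p.V.1) : pM ρ (redP p y) = (pM ρ y).map p.r :=
  funext fun b => funext fun a => (pv_red hp hy (ρ b a)).2.symm

theorem redS_pR (hp : ∀ c : ℂ, p.r (algebraMap ℂ E c) = algebraMap ℂ E' c) {y : Pnt io E}
    (hy : ∀ j i, y j i ∈ p.V.1)
    (h : Module.finrank E' (pR ρ (redP p y)) = Module.finrank E (pR ρ y)) :
    redS p (pR ρ y) = pR ρ (redP p y) := by
  rw [pR, pM_red hp hy] at h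
  rw [pR, pR, pM_red hp hy]
  exact redS_range_eq (fun b a => (pv_red hp hy _).1) h

theorem redS_Rb_le (hp : ∀ c : ℂ, p.r (algebraMap ℂ E c) = algebraMap ℂ E' c) {z : Cfg io I E}
    (hy : ∀ q j i, z.y q j i ∈ p.V.1)
    (h : ∀ q, Module.finrank E' (pR ρ (redP p (z.y q))) = Module.finrank E (pR ρ (z.y q))) :
    redS p (Rb kk' ρ z) ≤ Rb kk' ρ (z.red0 p) := by
  refine redS_le fun u hu hi => mem_Rb.2 ⟨fun b => ?_, fun q => ?_⟩
  · exact red_mem_redS ((mem_Rb.1 hu).1 b) fun q => hi _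
  · change _ ∈ pR ρ (redP p (z.y q))
    rw [← redS_pR hp (hy q) (h q)]
    exact red_mem_redS ((mem_Rb.1 hu).2 q) fun b => hi _

/-! ### on a tree -/

/-- values of vector sections at a family of points -/
def vvals {k : Type} [Field k] (kk' : B → J → ℕ) (t : Tr k J io) (sp : I → t.Pt) :
    (t.Vx → B → k[X]) →ₗ[k] (B × I → k) :=
  LinearMap.pi fun x => (LinearMap.proj x.1).comp (vv kk' t (sp x.2))


theorem ES_congr {k : Type*} [Field k] {kk : A → J → ℕ} {t : Tr k J io}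
    {N N' : ((j : J) → io j → k) → Submodule k (A → k)} (h : ∀ x, N (t.ev x) = N' (t.ev x)) :
    ES kk t N = ES kk t N' := by
  ext s; simp only [mem_ES, h]

theorem VG_congr {k : Type*} [Field k] {kk : A → J → ℕ} {t : Tr k J io}
    {N N' : ((j : J) → io j → k) → Submodule k (A → k)} (h : ∀ x, N (t.ev x) = N' (t.ev x))
    (hG : VG kk t N) : VG kk t N' := fun v => by
  have := hG v
  simp only [h] at this
  exact this

namespace TD

variable {d : J → ℕ} {N : ℕ} {z : Cfg io I E} {k : Type} [Field k] [Algebra ℂ k] (D : TD d N z k)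

/-- the configuration over `k` in the gauge of the tree -/
abbrev w : Cfg io I k := (z.map D.α).gau D.c

theorem ev_sp (q : I) : D.t.ev (D.sp q) = fun j i => D.c q j * D.α (z.y q j i) := (D.y_eq q).symm

theorem mem_V {κ : J → ℕ} (hκ : ∀ j, κ j ≤ N) {u : I → k} :
    u ∈ D.w.V κ ↔ ∃ s, D.t.IsSec κ s ∧ ∀ q, Tr.val κ D.t s (D.sp q) = u q := by
  rw [D.V_eq κ hκ]
  exact ⟨fun ⟨s, h1, h2⟩ => ⟨s, h1, fun q => congrFun h2 q⟩,
    fun ⟨s, h1, h2⟩ => ⟨s, h1, funext h2⟩⟩

theorem eq_zero {κ : J → ℕ} (hκ : ∀ j, κ j ≤ N) {s : D.t.Vx → k[X]} (hs : D.t.IsSec κ s)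
    (h : ∀ q, Tr.val κ D.t s (D.sp q) = 0) : s = 0 :=
  D.nrm κ hκ s hs (by rintro _ ⟨q, rfl⟩; exact h q)

theorem finrank_w (κ : J → ℕ) : Module.finrank k (D.w.V κ) = Module.finrank E (z.V κ) :=
  (finrank_sclS (fun q => chr_ne' (D.c_ne q) κ) _).trans (finrank_mapS _ _)

include D in
theorem finrank_V {κ : J → ℕ} (hκ : ∀ j, κ j ≤ N) :
    Module.finrank E (z.V κ) = dot κ d + 1 := by
  have h1 := finrank_sec κ D.ok
  rw [D.deg] at h1
  rw [← D.finrank_w, D.V_eq κ hκ, ← h1, ← LinearMap.range_domRestrict]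
  refine LinearMap.finrank_range_of_inj ((injective_iff_map_eq_zero _).2 fun s hs => ?_)
  exact Subtype.ext (D.eq_zero hκ s.2 fun q => congrFun hs q)

include D in
theorem nz : z.NZ := fun q j => by
  obtain ⟨i, hi⟩ := D.ok.ev_ne (D.sp q) j
  refine ⟨i, fun h => hi ?_⟩
  rw [D.ev_sp]; simp [h]

theorem vvals_inj (hk : ∀ b j, kk' b j ≤ N) {s : D.t.Vx → B → k[X]} (hs : s ∈ TS kk' D.t)
    (h : vvals kk' D.t D.sp s = 0) : s = 0 := by
  funext v b
  have := D.eq_zero (hk b) (hs b) fun q => by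
    rw [← vv_eq_val kk' D.t _ s b]; exact congrFun h (b, q)
  exact congrFun this v

theorem finrank_map_vvals (hk : ∀ b j, kk' b j ≤ N) {U : Submodule k (D.t.Vx → B → k[X])}
    (hU : U ≤ TS kk' D.t) :
    Module.finrank k (U.map (vvals kk' D.t D.sp)) = Module.finrank k U := by
  rw [← LinearMap.range_domRestrict]
  exact LinearMap.finrank_range_of_inj ((injective_iff_map_eq_zero _).2 fun s hs =>
    Subtype.ext (D.vvals_inj hk (hU s.2) hs))

theorem pR_sp (h : HZ kk' kk ρ) (q : I) :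
    pR ρ (D.t.ev (D.sp q)) = sclS (fun b => ∏ j, D.c q j ^ kk' b j) (mapS D.α (pR ρ (z.y q))) := by
  rw [D.ev_sp, h.pR_scl (D.c_ne q), pR_map]

theorem finrank_pR (h : HZ kk' kk ρ) (q : I) :
    Module.finrank k (pR ρ (D.t.ev (D.sp q))) = Module.finrank E (pR ρ (z.y q)) := by
  rw [D.pR_sp h, finrank_sclS fun b => chr_ne' (D.c_ne q) _, finrank_mapS]

theorem Rb_w (h : HZ kk' kk ρ) : Rb kk' ρ D.w =
    sclS (fun x => ∏ j, D.c x.2 j ^ kk' x.1 j) (mapS D.α (Rb kk' ρ z)) := by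
  rw [h.Rb_gau D.c_ne, Rb_map]

theorem finrank_Rb_w (h : HZ kk' kk ρ) :
    Module.finrank k (Rb kk' ρ D.w) = Module.finrank E (Rb kk' ρ z) := by
  rw [D.Rb_w h, finrank_sclS fun x : B × I => chr_ne' (D.c_ne x.2) (kk' x.1), finrank_mapS]

/-- the space `Rb` is the space of values of the sections on the tree -/
theorem Rb_eq (h : HZ kk' kk ρ) {n : ℕ} (hn : ∀ x, Module.finrank k (pR ρ (D.t.ev x)) = n)
    (hk : ∀ b j, (n + 1) * kk' b j ≤ N) :
    Rb kk' ρ D.w = (ES kk' D.t (pR ρ)).map (vvals kk' D.t D.sp) := by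
  have hk' : ∀ b j, kk' b j ≤ N := fun b j => le_trans (Nat.le_mul_of_pos_left _ n.succ_pos) (hk b j)
  ext σ
  rw [mem_Rb]
  constructor
  · rintro ⟨h1, h2⟩
    choose s hs hv using fun b => (D.mem_V (hk' b)).1 (h1 b)
    have h3 : ∀ q, vv kk' D.t (D.sp q) (fun v b => s b v) = fun b => σ (b, q) := fun q =>
      funext fun b => by rw [vv_eq_val]; exact hv b q
    refine ⟨fun v b => s b v, ?_, funext fun x => congrFun (h3 x.2) x.1⟩
    refine (hm_sb h D.ok).sat_range D.ok (fun x b a h0 => h.le_of_ne h0) hn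
      (Y := Set.range D.sp) (fun b κ hκ => D.nrm κ fun j => ?_) hs ?_
    · have h4 := hκ j
      rw [Finset.sum_apply] at h4
      have h5 : (n + 1) * ∑ i, kk' (b i) j ≤ (n + 1) * N := by
        rw [Finset.mul_sum]
        refine (Finset.sum_le_sum fun i _ => hk (b i) j).trans ?_
        simp
      exact h4.trans (Nat.le_of_mul_le_mul_left h5 n.succ_pos)
    · rintro _ ⟨q, rfl⟩
      rw [h3, ← D.y_eq]; exact h2 q
  · rintro ⟨s, hs, rfl⟩
    obtain ⟨h1, h2⟩ := mem_ES.1 hs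
    refine ⟨fun b => (D.mem_V (hk' b)).2 ⟨_, h1 b, fun q => (vv_eq_val _ _ _ _ _).symm⟩,
      fun q => ?_⟩
    rw [D.y_eq]; exact h2 _

theorem finrank_Rb (h : HZ kk' kk ρ) {n : ℕ} (hn : ∀ x, Module.finrank k (pR ρ (D.t.ev x)) = n)
    (hk : ∀ b j, (n + 1) * kk' b j ≤ N) :
    Module.finrank E (Rb kk' ρ z) = Module.finrank k (ES kk' D.t (pR ρ)) := by
  rw [← D.finrank_Rb_w h, D.Rb_eq h hn hk]
  exact D.finrank_map_vvals
    (fun b j => le_trans (Nat.le_mul_of_pos_left _ n.succ_pos) (hk b j)) inf_le_left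

/-- evaluation at a point is onto -/
theorem map_Rb (h : HZ kk' kk ρ) {n : ℕ} (hn : ∀ x, Module.finrank k (pR ρ (D.t.ev x)) = n)
    (hk : ∀ b j, (n + 1) * kk' b j ≤ N) (q : I) :
    (Rb kk' ρ z).map (LinearMap.funLeft E E fun b => (b, q)) = pR ρ (z.y q) := by
  apply mapS_injective D.α
  rw [mapS_map]
  apply le_antisymm
  · rintro _ ⟨σ, hσ, rfl⟩
    rw [← Rb_map] at hσ
    rw [← pR_map]; exact (mem_Rb.1 hσ).2 q
  · intro u hu
    have h1 : (fun b => (∏ j, D.c q j ^ kk' b j) * u b) ∈ pR ρ (D.t.ev (D.sp q)) := by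
      rw [D.pR_sp h]; exact ⟨u, hu, rfl⟩
    obtain ⟨s, hs, h2⟩ := ES_ev D.ok (hm_sb h D.ok).vg_range _ _ h1
    have h3 : vvals kk' D.t D.sp s ∈ Rb kk' ρ D.w := by
      rw [D.Rb_eq h hn hk]; exact ⟨s, hs, rfl⟩
    rw [D.Rb_w h] at h3
    obtain ⟨σ, hσ, h4⟩ := h3
    refine ⟨σ, hσ, funext fun b => mul_left_cancel₀ (chr_ne' (D.c_ne q) (kk' b)) ?_⟩
    exact (congrFun h4 (b, q)).trans (congrFun h2 b)

/-- a multihomogeneous polynomial vanishing at the points vanishes on the tree -/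
theorem pv_eq_zero {F : MvPolynomial (Vr io) ℂ} {κ : J → ℕ} (hF : MH F κ) (hκ : ∀ j, κ j ≤ N)
    (h : ∀ q, pv (z.y q) F = 0) (x : D.t.Pt) : pv (D.t.ev x) F = 0 := by
  obtain ⟨h1, h2⟩ := isSec_sb hF D.ok
  rw [← h2, D.eq_zero hκ h1 fun q => ?_, Tr.val_zero]
  rw [h2, D.ev_sp, (MZ.of_MH hF).pv_scl (D.c_ne q), pv_map, h, map_zero, mul_zero]

include D in
/-- the values of a multihomogeneous polynomial lie in `V` -/
theorem pv_mem_V {F : MvPolynomial (Vr io) ℂ} {κ : J → ℕ} (hF : MH F κ) (hκ : ∀ j, κ j ≤ N) :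
    (fun q => pv (z.y q) F) ∈ z.V κ := by
  obtain ⟨h1, h2⟩ := isSec_sb hF D.ok
  have h3 := (D.mem_V hκ).2 ⟨_, h1, fun q => h2 (D.sp q)⟩
  rw [← map_mem_mapS_iff D.α, ← mul_mem_sclS_iff fun q => chr_ne' (D.c_ne q) κ]
  have h4 : (fun q => (∏ j, D.c q j ^ κ j) * D.α (pv (z.y q) F)) =
      fun q => pv (D.t.ev (D.sp q)) F := funext fun q => by
    rw [D.ev_sp, (MZ.of_MH hF).pv_scl (D.c_ne q), pv_map]
    simp only [zpow_natCast]
  rw [h4]; exact h3

/-- gauge transformations -/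
def gau {c : I → J → E} (hc : ∀ q j, c q j ≠ 0) : TD d N (z.gau c) k where
  α := D.α
  t := D.t
  sp := D.sp
  c q j := D.c q j / D.α (c q j)
  ok := D.ok
  deg := D.deg
  c_ne q j := div_ne_zero (D.c_ne q j) ((_root_.map_ne_zero _).2 (hc q j))
  y_eq q := by
    rw [D.ev_sp]
    funext j i
    change D.c q j / D.α (c q j) * D.α (c q j * z.y q j i) = _
    rw [map_mul, ← mul_assoc, div_mul_cancel₀ _ ((_root_.map_ne_zero _).2 (hc q j))]
  V_eq κ hκ := by
    rw [← D.V_eq κ hκ]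
    change sclS _ (mapS D.α (sclS _ (z.V κ))) = sclS _ (mapS D.α (z.V κ))
    rw [mapS_sclS, sclS_sclS]
    congr 1
    funext q
    rw [map_prod, ← Finset.prod_mul_distrib]
    refine Finset.prod_congr rfl fun j _ => ?_
    rw [map_pow, ← mul_pow, div_mul_cancel₀ _ ((_root_.map_ne_zero _).2 (hc q j))]
  nrm := D.nrm

/-- smaller bound -/
def mono {N' : ℕ} (h : N' ≤ N) : TD d N' z k :=
  { D with
    V_eq := fun κ hκ => D.V_eq κ fun j => (hκ j).trans h
    nrm := fun κ hκ => D.nrm κ fun j => (hκ j).trans h }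


end TD

namespace TL

variable {d : J → ℕ} {N : ℕ} {z : Cfg io I E}

theorem gau (h : TL d N z) {c : I → J → E} (hc : ∀ q j, c q j ≠ 0) : TL d N (z.gau c) := by
  obtain ⟨k, _, _, _, ⟨D⟩⟩ := h
  exact ⟨k, _, _, ‹_›, ⟨D.gau hc⟩⟩

theorem mono (h : TL d N z) {N' : ℕ} (hN : N' ≤ N) : TL d N' z := by
  obtain ⟨k, _, _, _, ⟨D⟩⟩ := h
  exact ⟨k, _, _, ‹_›, ⟨D.mono hN⟩⟩


theorem nz (h : TL d N z) : z.NZ := by
  obtain ⟨k, _, _, _, ⟨D⟩⟩ := h
  exact D.nz

theorem finrank_V (h : TL d N z) {κ : J → ℕ} (hκ : ∀ j, κ j ≤ N) :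
    Module.finrank E (z.V κ) = dot κ d + 1 := by
  obtain ⟨k, _, _, _, ⟨D⟩⟩ := h
  exact D.finrank_V hκ

theorem pv_mem_V (h : TL d N z) {F : MvPolynomial (Vr io) ℂ} {κ : J → ℕ} (hF : MH F κ)
    (hκ : ∀ j, κ j ≤ N) : (fun q => pv (z.y q) F) ∈ z.V κ := by
  obtain ⟨k, _, _, _, ⟨D⟩⟩ := h
  exact D.pv_mem_V hF hκ

end TL

end Crest.Agent.X262.Tree87
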