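import Crest.Agent.X262.Tree87.T4

/-!
Row 262, Tree87, part Ses: exact sequences of spaces of sections on tree-like configurations.
-/

set_option autoImplicit false
set_option linter.unusedSectionVars false

noncomputable section

namespace Crest.Agent.X262.Tree87

open Polynomial Crest.Agent.X262.Bub96 Crest.Agent.X262.Bub96.Tr Crest.Agent.X262.Vb
open Crest.Agent.X277 Crest.Agent.X277.BD

section tree

variable {k : Type} [Field k] {J : Type} [Fintype J] [DecidableEq J] {io : J → Type}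
  [∀ j, Fintype (io j)] [∀ j, DecidableEq (io j)] {A B C : Type}
  [Fintype A] [Fintype B] [Fintype C] {kk : A → J → ℕ} {e : B → J → ℕ} {e' : C → J → ℕ}
  {M : ((j : J) → io j → k) → Matrix B A k} {M' : ((j : J) → io j → k) → Matrix C A k}
  {t : Tr k J io} {P : t.Vx → Matrix B A k[X]} {P' : t.Vx → Matrix C A k[X]}

omit [Fintype B] [Fintype C] in
theorem HM.stack (h : HM e kk M t P) (h' : HM e' kk M' t P') :
    HM (Sum.elim e e') kk (fun y => Sum.elim (M y) (M' y)) t fun v => Sum.elim (P v) (P' v) := by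
  intro v
  refine ⟨fun b a => ?_, fun p => funext fun b => funext fun a => ?_⟩
  · rcases b with b | b
    · exact (h v).1 b a
    · exact (h' v).1 b a
  · rcases b with b | b
    · exact congrFun (congrFun ((h v).2 p) b) a
    · exact congrFun (congrFun ((h' v).2 p) b) a

/-- sections of a kernel surject on the sections of its image, if the kernel of the map is
generated -/
theorem HM.map_ES [IsAlgClosed k] (ht : t.OK) (h : HM e kk M t P) (h' : HM e' kk M' t P')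
    (hG : VG kk t fun y => LinearMap.ker (M y).mulVecLin ⊓ LinearMap.ker (M' y).mulVecLin) :
    (ES kk t fun y => LinearMap.ker (M y).mulVecLin).map (mulL t P') =
      ES e' t fun y => (LinearMap.ker (M y).mulVecLin).map (M' y).mulVecLin := by
  apply le_antisymm
  · rintro _ ⟨s, hs, rfl⟩
    obtain ⟨h1, h2⟩ := mem_ES.1 hs
    exact mem_ES.2 ⟨h'.mul_mem_TS ht h1, fun x => ⟨_, h2 x, (h'.vv_mul (TS.dl h1) x).symm⟩⟩
  · intro τ hτ
    obtain ⟨h1, h2⟩ := mem_ES.1 hτ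
    have h3 : (fun v => Sum.elim (fun _ => 0) (τ v)) ∈ ES (Sum.elim e e') t fun y =>
        LinearMap.range (Matrix.mulVecLin (Sum.elim (M y) (M' y) : Matrix (B ⊕ C) A k)) := by
      refine mem_ES.2 ⟨fun b => ?_, fun x => ?_⟩
      · rcases b with b | b
        · exact isSec_zero _ _
        · exact h1 b
      · obtain ⟨u, h4, h5⟩ := h2 x
        refine ⟨u, funext fun b => ?_⟩
        rcases b with b | b
        · exact (congrFun h4 b).trans (map_zero (ev _ x.2)).symm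
        · exact congrFun h5 b
    rw [← (h.stack h').map_TS ht (VG_congr (fun x => ?_) hG)] at h3
    · obtain ⟨s, h4, h5⟩ := h3
      refine ⟨s, h.mem_ES_ker.2 ⟨h4, funext fun v => funext fun b => ?_⟩,
        funext fun v => funext fun b => ?_⟩
      · exact congrFun (congrFun h5 v) (Sum.inl b)
      · exact congrFun (congrFun h5 v) (Sum.inr b)
    · ext u
      exact ⟨fun hu => funext fun b => by
        rcases b with b | b
        · exact congrFun hu.1 b
        · exact congrFun hu.2 b,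
        fun hu => ⟨funext fun b => congrFun hu (Sum.inl b), funext fun b => congrFun hu (Sum.inr b)⟩⟩

theorem finrank_map_add_inf {V W : Type*} [AddCommGroup V] [Module k V] [AddCommGroup W]
    [Module k W] (f : V →ₗ[k] W) (U : Submodule k V) [Module.Finite k U] :
    Module.finrank k (U.map f) + Module.finrank k (U ⊓ LinearMap.ker f : Submodule k V) =
      Module.finrank k U := by
  rw [← LinearMap.finrank_range_add_finrank_ker (f.domRestrict U), LinearMap.range_domRestrict,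
    LinearMap.ker_domRestrict, ← Submodule.finrank_map_subtype_eq U, Submodule.map_comap_subtype]

theorem HM.finrank_ses [IsAlgClosed k] (ht : t.OK) (h : HM e kk M t P) (h' : HM e' kk M' t P')
    (hG : VG kk t fun y => LinearMap.ker (M y).mulVecLin ⊓ LinearMap.ker (M' y).mulVecLin) :
    Module.finrank k (ES e' t fun y => (LinearMap.ker (M y).mulVecLin).map (M' y).mulVecLin) +
      Module.finrank k
        (ES kk t fun y => LinearMap.ker (M y).mulVecLin ⊓ LinearMap.ker (M' y).mulVecLin) =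
      Module.finrank k (ES kk t fun y => LinearMap.ker (M y).mulVecLin) := by
  have := finite_ES kk t fun y => LinearMap.ker (M y).mulVecLin
  rw [← finrank_map_add_inf (mulL t P') (ES kk t fun y => LinearMap.ker (M y).mulVecLin),
    h.map_ES ht h' hG]
  have h1 : (ES kk t fun y => LinearMap.ker (M y).mulVecLin ⊓ LinearMap.ker (M' y).mulVecLin) =
      (ES kk t fun y => LinearMap.ker (M y).mulVecLin) ⊓ LinearMap.ker (mulL t P') := by
    ext s
    constructor
    · intro hs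
      obtain ⟨h1, h2⟩ := mem_ES.1 hs
      exact ⟨mem_ES.2 ⟨h1, fun x => (h2 x).1⟩,
        (h'.mem_ES_ker.1 (mem_ES.2 ⟨h1, fun x => (h2 x).2⟩)).2⟩
    · rintro ⟨h1, h2⟩
      obtain ⟨h3, h4⟩ := mem_ES.1 h1
      exact mem_ES.2 ⟨h3, fun x => ⟨h4 x, (mem_ES.1 (h'.mem_ES_ker.2 ⟨h3, h2⟩)).2 x⟩⟩
  rw [h1]

end tree

variable {J : Type} [Fintype J] [DecidableEq J] {io : J → Type} [∀ j, Fintype (io j)]
  [∀ j, DecidableEq (io j)] {A A' B C I : Type} [Fintype A] [Fintype A'] [Fintype B] [Fintype C]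
  [Fintype I] {E E' : Type} [Field E] [Algebra ℂ E] [Field E'] [Algebra ℂ E']

/-! ### products and minors of homogeneous matrices -/

theorem MZ.mul {q q' : MvPolynomial (Vr io) ℂ} {κ κ' : J → ℤ} (h : MZ q κ) (h' : MZ q' κ') :
    MZ (q * q') (κ + κ') := MvPolynomial.IsWeightedHomogeneous.mul h h'

theorem MZ.sum {ι : Type*} (s : Finset ι) {q : ι → MvPolynomial (Vr io) ℂ} {κ : J → ℤ}
    (h : ∀ i ∈ s, MZ (q i) κ) : MZ (∑ i ∈ s, q i) κ :=
  MvPolynomial.IsWeightedHomogeneous.sum s q κ h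

theorem MZ.prod {ι : Type*} (s : Finset ι) {q : ι → MvPolynomial (Vr io) ℂ} {κ : ι → J → ℤ}
    (h : ∀ i ∈ s, MZ (q i) (κ i)) : MZ (∏ i ∈ s, q i) (∑ i ∈ s, κ i) :=
  MvPolynomial.IsWeightedHomogeneous.prod s q κ h

theorem MZ.one : MZ (1 : MvPolynomial (Vr io) ℂ) 0 := MvPolynomial.isWeightedHomogeneous_one _ _

theorem MZ.neg {q : MvPolynomial (Vr io) ℂ} {κ : J → ℤ} (h : MZ q κ) : MZ (-q) κ :=
  fun s hs => h (by simpa using hs)

theorem MZ.X (v : Vr io) : MZ (MvPolynomial.X v) (Pi.single v.1 1) :=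
  MvPolynomial.isWeightedHomogeneous_X _ _ v

theorem MZ.congr {q : MvPolynomial (Vr io) ℂ} {κ κ' : J → ℤ} (h : MZ q κ) (e : ∀ j, κ j = κ' j) :
    MZ q κ' := (funext e : κ = κ') ▸ h

theorem MZ.minor {n : ℕ} {v : Fin n → B → MvPolynomial (Vr io) ℂ} {r : Fin n → J → ℤ}
    {c : B → J → ℤ} (h : ∀ i b, MZ (v i b) (r i + c b)) (b : Fin n → B) :
    MZ (minor v b) (∑ i, r i + ∑ i, c (b i)) := by
  unfold Tree87.minor
  rw [Matrix.det_apply']
  refine MZ.sum _ fun σ _ => ?_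
  have h1 := MZ.prod Finset.univ fun i _ => h (σ i) (b i)
  rw [Finset.sum_add_distrib, Equiv.sum_comp σ r] at h1
  rcases Int.units_eq_one_or (Equiv.Perm.sign σ) with h2 | h2 <;> rw [h2]
  · simpa using h1
  · simpa using h1.neg

/-- product of matrices of polynomials -/
def mm (ψ : C → B → MvPolynomial (Vr io) ℂ) (γ : B → A → MvPolynomial (Vr io) ℂ) :
    C → A → MvPolynomial (Vr io) ℂ := fun c a => ∑ b, ψ c b * γ b a

variable {kk : B → J → ℕ} {k0 : A → J → ℕ} {k1 : A' → J → ℕ} {k2 : C → J → ℕ}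
  {γ : B → A → MvPolynomial (Vr io) ℂ} {γ' : B → A' → MvPolynomial (Vr io) ℂ}
  {ψ : C → B → MvPolynomial (Vr io) ℂ}

theorem HZ.mm (h : HZ k2 kk ψ) (h' : HZ kk k0 γ) : HZ k2 k0 (mm ψ γ) := fun c a =>
  MZ.sum _ fun b _ => ((h c b).mul (h' b a)).congr fun j => by simp

theorem pM_mm (ψ : C → B → MvPolynomial (Vr io) ℂ) (γ : B → A → MvPolynomial (Vr io) ℂ)
    (y : Pnt io E) : pM (mm ψ γ) y = pM ψ y * pM γ y := by
  ext c a
  simp only [pM, mm, pv, map_sum, map_mul, Matrix.mul_apply]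

theorem pR_mm (ψ : C → B → MvPolynomial (Vr io) ℂ) (γ : B → A → MvPolynomial (Vr io) ℂ)
    (y : Pnt io E) : pR (mm ψ γ) y = (pR γ y).map (pM ψ y).mulVecLin := by
  rw [pR, pR, pM_mm, Matrix.mulVecLin_mul, LinearMap.range_comp]

/-- the kernel of a matrix of polynomials at a point -/
def pK (ψ : C → B → MvPolynomial (Vr io) ℂ) (y : Pnt io E) : Submodule E (B → E) :=
  LinearMap.ker (pM ψ y).mulVecLin

theorem mem_pK {y : Pnt io E} {u : B → E} : u ∈ pK ψ y ↔ ∀ c, ∑ b, pv y (ψ c b) * u b = 0 :=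
  funext_iff

theorem finrank_pR_add_pK (ψ : C → B → MvPolynomial (Vr io) ℂ) (y : Pnt io E) :
    Module.finrank E (pR ψ y) + Module.finrank E (pK ψ y) = Fintype.card B := by
  rw [pR, pK, LinearMap.finrank_range_add_finrank_ker, Module.finrank_fintype_fun_eq_card]

theorem finrank_pR_le (γ : B → A → MvPolynomial (Vr io) ℂ) (y : Pnt io E) :
    Module.finrank E (pR γ y) ≤ Fintype.card B :=
  (Submodule.finrank_le _).trans (Module.finrank_fintype_fun_eq_card E).le

theorem pK_map (α : E →ₐ[ℂ] E') (ψ : C → B → MvPolynomial (Vr io) ℂ) (y : Pnt io E) :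
    pK ψ (fun j i => α (y j i)) = mapS α (pK ψ y) := by
  rw [pK, pK, mapS_ker]
  congr 2
  funext b a
  exact pv_map α y _

theorem HZ.pK_scl (h : HZ k2 kk ψ) {c : J → E} (hc : ∀ j, c j ≠ 0) (y : Pnt io E) :
    pK ψ (fun j i => c j * y j i) = sclS (fun b => ∏ j, c j ^ kk b j) (pK ψ y) := by
  ext w
  rw [mem_sclS_iff fun b => chr_ne' hc (kk b)]
  have := h.mulVec_scl hc y fun a => (∏ j, c j ^ kk a j)⁻¹ * w a
  simp only [mul_inv_cancel_left₀ (chr_ne' hc _)] at this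
  change Matrix.mulVec _ w = 0 ↔ Matrix.mulVec _ _ = 0
  rw [this]
  exact ⟨fun h1 => funext fun b => (mul_eq_zero.1 (congrFun h1 b)).resolve_left (chr_ne' hc _),
    fun h1 => funext fun b => by rw [h1]; simp⟩

omit [Algebra ℂ E] in
theorem sclS_inf {c : B → E} (hc : ∀ x, c x ≠ 0) (U U' : Submodule E (B → E)) :
    sclS c (U ⊓ U') = sclS c U ⊓ sclS c U' := by
  ext w
  simp only [Submodule.mem_inf, mem_sclS_iff hc]

omit [Algebra ℂ E] in
theorem sclS_le_iff {c : B → E} (hc : ∀ x, c x ≠ 0) {U U' : Submodule E (B → E)} :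
    sclS c U ≤ sclS c U' ↔ U ≤ U' :=
  ⟨fun h _ hu => (mul_mem_sclS_iff hc).1 (h ((mul_mem_sclS_iff hc).2 hu)),
    fun h => Submodule.map_mono h⟩

open Classical in
/-- the equations of the range of a matrix of rank `n` -/
def mn (γ : B → A → MvPolynomial (Vr io) ℂ) (n : ℕ) :
    (Fin n → A) × (Fin (n + 1) → B) → B → MvPolynomial (Vr io) ℂ :=
  fun x b => minor (aug (Pi.single b 1) γ x.1) x.2

/-- the degrees of the equations of the range -/
def eM (kk : B → J → ℕ) (k0 : A → J → ℕ) (n : ℕ) : (Fin n → A) × (Fin (n + 1) → B) → J → ℕ :=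
  fun x => ∑ i, kk (x.2 i) - ∑ i, k0 (x.1 i)

theorem HZ.mn (h : HZ kk k0 γ) (n : ℕ) : HZ (eM kk k0 n) kk (mn γ n) := by
  classical
  intro x b
  have h1 : MZ (Tree87.mn γ n x b) _ := MZ.minor
    (r := Fin.cons (fun j => -(kk b j : ℤ)) fun i j => -(k0 (x.1 i) j : ℤ))
    (c := fun b j => (kk b j : ℤ)) (fun i b' => Fin.cases (by
      by_cases hb : b' = b
      · subst hb
        simp only [aug, Fin.cons_zero, Pi.single_eq_same]
        exact MZ.one.congr fun j => by simp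
      · simp only [aug, Fin.cons_zero, Pi.single_eq_of_ne hb]
        exact MZ.zero _) (fun i => (h b' (x.1 i)).congr fun j => by simp; ring) i) x.2
  by_cases h0 : Tree87.mn γ n x b = 0
  · rw [h0]; exact MZ.zero _
  refine h1.congr fun j => ?_
  have h2 := h1.nonneg h0 j
  simp only [Fin.sum_univ_succ (n := n), Fin.cons_zero, Fin.cons_succ, Pi.add_apply,
    Finset.sum_apply, Finset.sum_neg_distrib, eM, Pi.sub_apply] at h2 ⊢
  have h3 : ((∑ i, k0 (x.1 i) j : ℕ) : ℤ) ≤ (kk (x.2 0) j + ∑ i : Fin n, kk (x.2 i.succ) j : ℕ) := by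
    push_cast; linarith [Int.natCast_nonneg (kk b j)]
  rw [Nat.cast_sub (by exact_mod_cast h3)]
  push_cast; ring

theorem mulVec_mn (γ : B → A → MvPolynomial (Vr io) ℂ) (n : ℕ) (y : Pnt io E) (u : B → E)
    (x : (Fin n → A) × (Fin (n + 1) → B)) :
    (pM (mn γ n) y).mulVec u x = minor (aug u (pM γ y) x.1) x.2 := by
  classical
  have h1 : ∀ b, pM (mn γ n) y x b = minor (aug (Pi.single b 1) (pM γ y) x.1) x.2 := fun b => by
    refine (minor_map (MvPolynomial.aeval (R := ℂ) fun v : Vr io => y v.1 v.2).toRingHom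
      (aug (Pi.single b 1) γ x.1) x.2).trans ?_
    congr 1
    funext i b'
    refine Fin.cases ?_ (fun i => rfl) i
    by_cases hb : b' = b <;> simp [aug, hb]
  simp only [Matrix.mulVec, dotProduct, h1, minor, Matrix.det_succ_row_zero, Matrix.of_apply, aug,
    Fin.cons_zero, Finset.sum_mul]
  rw [Finset.sum_comm]
  refine Finset.sum_congr rfl fun i _ => ?_
  rw [Finset.sum_eq_single (x.2 i) (fun b _ hb => by simp [Pi.single_eq_of_ne hb.symm]) (by simp)]
  simp only [Pi.single_eq_same, mul_one]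
  rw [mul_right_comm]
  rfl

theorem pK_mn {n : ℕ} {y : Pnt io E} (h : Module.finrank E (pR γ y) = n) :
    pK (mn γ n) y = pR γ y := by
  ext u
  exact ⟨fun hu => mem_range_of_minor h fun a b =>
      (mulVec_mn γ n y u (a, b)).symm.trans (congrFun hu (a, b)),
    fun hu => funext fun x => (mulVec_mn γ n y u x).trans (minor_aug_eq_zero h hu _ _)⟩

/-! ### configurations -/

/-- sections of `⊕ O(kk b)` -/
def Am (kk : B → J → ℕ) (z : Cfg io I E) : Submodule E (B × I → E) :=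
  ⨅ b, (z.V (kk b)).comap (LinearMap.funLeft E E fun q => (b, q))

theorem mem_Am {z : Cfg io I E} {σ : B × I → E} :
    σ ∈ Am kk z ↔ ∀ b, (fun q => σ (b, q)) ∈ z.V (kk b) := Submodule.mem_iInf _

/-- the map induced by a matrix -/
def mpL (ψ : C → B → MvPolynomial (Vr io) ℂ) (z : Cfg io I E) : (B × I → E) →ₗ[E] (C × I → E) :=
  LinearMap.pi fun x => ∑ b, pv (z.y x.2) (ψ x.1 b) • LinearMap.proj (b, x.2)

theorem mpL_apply (ψ : C → B → MvPolynomial (Vr io) ℂ) (z : Cfg io I E) (σ : B × I → E)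
    (x : C × I) : mpL ψ z σ x = ∑ b, pv (z.y x.2) (ψ x.1 b) * σ (b, x.2) := by
  simp [mpL, LinearMap.sum_apply]

theorem mpL_at (ψ : C → B → MvPolynomial (Vr io) ℂ) (z : Cfg io I E) (σ : B × I → E) (q : I) :
    (fun c => mpL ψ z σ (c, q)) = (pM ψ (z.y q)).mulVec fun b => σ (b, q) :=
  funext fun _ => mpL_apply _ _ _ _

theorem mem_ker_mpL {z : Cfg io I E} {σ : B × I → E} :
    σ ∈ LinearMap.ker (mpL ψ z) ↔ ∀ q, (fun b => σ (b, q)) ∈ pK ψ (z.y q) := by
  simp only [LinearMap.mem_ker, mem_pK, funext_iff, mpL_apply, Pi.zero_apply, Prod.forall]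
  exact forall_comm

theorem Rb_congr {z : Cfg io I E} (h : ∀ q, pR γ (z.y q) = pR γ' (z.y q)) :
    Rb kk γ z = Rb kk γ' z := by
  simp only [Rb, h]

theorem Rb_le_Am (z : Cfg io I E) : Rb kk γ z ≤ Am kk z := inf_le_left

open Classical in
/-- the identity matrix -/
def idM (io : J → Type) (B : Type) : B → B → MvPolynomial (Vr io) ℂ :=
  fun b b' => if b = b' then 1 else 0

theorem hz_idM (kk : B → J → ℕ) : HZ kk kk (idM io B) := fun b b' => by
  unfold idM
  split_ifs with h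
  · subst h; exact MZ.one.congr fun j => by simp
  · exact MZ.zero _

theorem pR_idM (y : Pnt io E) : pR (idM io B) y = ⊤ := by
  classical
  refine eq_top_iff.2 fun u _ => ⟨u, funext fun b => ?_⟩
  simp [pM, idM, Matrix.mulVec, dotProduct, pv, apply_ite]

theorem Rb_idM (kk : B → J → ℕ) (z : Cfg io I E) : Rb kk (idM io B) z = Am kk z := by
  simp [Rb, pR_idM, Am]

theorem pR_mm_idM (ψ : C → B → MvPolynomial (Vr io) ℂ) (y : Pnt io E) :
    pR (mm ψ (idM io B)) y = pR ψ y := by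
  rw [pR_mm, pR_idM, Submodule.map_top]; rfl

/-- `0 → range γ' → range γ → range (ψ γ) → 0` is exact at `y`, with ranks `n'`, `n` -/
structure Ex (γ' : B → A' → MvPolynomial (Vr io) ℂ) (γ : B → A → MvPolynomial (Vr io) ℂ)
    (ψ : C → B → MvPolynomial (Vr io) ℂ) (n' n : ℕ) (y : Pnt io E) : Prop where
  r1 : Module.finrank E (pR γ' y) = n'
  r2 : Module.finrank E (pR γ y) = n
  ex : pR γ y ⊓ pK ψ y = pR γ' y

theorem Ex.r3 {n' n : ℕ} {y : Pnt io E} (h : Ex γ' γ ψ n' n y) :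
    Module.finrank E (pR (mm ψ γ) y) = n - n' := by
  have := finrank_map_add_inf (pM ψ y).mulVecLin (pR γ y)
  rw [← pR_mm, show pR γ y ⊓ LinearMap.ker (pM ψ y).mulVecLin = _ from h.ex, h.r1, h.r2] at this
  omega

theorem Ex.le {n' n : ℕ} {y : Pnt io E} (h : Ex γ' γ ψ n' n y) : n' ≤ n := by
  rw [← h.r1, ← h.r2, ← h.ex]
  exact Submodule.finrank_mono inf_le_left

theorem le_of_card {n m a N : ℕ} (h : n ≤ m) (h' : (m + 1) * a ≤ N) : (n + 1) * a ≤ N :=
  (Nat.mul_le_mul_right _ (Nat.succ_le_succ h)).trans h'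

theorem le_of_succ_mul {m a N : ℕ} (h' : (m + 1) * a ≤ N) : a ≤ N :=
  (Nat.le_mul_of_pos_left _ m.succ_pos).trans h'

variable {d : J → ℕ} {N : ℕ} {z : Cfg io I E}

namespace TD

variable {k : Type} [Field k] [Algebra ℂ k] (D : TD d N z k)

theorem pK_sp (h : HZ k2 kk ψ) (q : I) :
    pK ψ (D.t.ev (D.sp q)) = sclS (fun b => ∏ j, D.c q j ^ kk b j) (mapS D.α (pK ψ (z.y q))) := by
  rw [D.ev_sp, h.pK_scl (D.c_ne q), pK_map]



theorem ex_of (h : HZ kk k0 γ) (h' : HZ kk k1 γ') (hψ : HZ k2 kk ψ) {n' n : ℕ} {q : I}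
    (e : Ex γ' γ ψ n' n (D.t.ev (D.sp q))) : Ex γ' γ ψ n' n (z.y q) := by
  refine ⟨(D.finrank_pR h' q).symm.trans e.r1, (D.finrank_pR h q).symm.trans e.r2, ?_⟩
  have h1 := e.ex
  have hc := fun b => chr_ne' (D.c_ne q) (kk b)
  rw [D.pR_sp h, D.pR_sp h', D.pK_sp hψ, ← sclS_inf hc, ← mapS_inf] at h1
  exact mapS_injective D.α (le_antisymm ((sclS_le_iff hc).1 h1.le) ((sclS_le_iff hc).1 h1.ge))

theorem mem_V_iff {κ : J → ℕ} {u : I → E} :
    (fun q => (∏ j, D.c q j ^ κ j) * D.α (u q)) ∈ D.w.V κ ↔ u ∈ z.V κ :=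
  (mul_mem_sclS_iff fun q => chr_ne' (D.c_ne q) κ).trans (map_mem_mapS_iff D.α)

include D in
theorem mpL_mem (hψ : HZ k2 kk ψ) (hk : ∀ b j, kk b j ≤ N) (hk2 : ∀ c j, k2 c j ≤ N)
    {σ : B × I → E} (hσ : σ ∈ Am kk z) : mpL ψ z σ ∈ Am k2 z := by
  choose s hs hv using fun b => (D.mem_V (hk b)).1 (D.mem_V_iff.2 (mem_Am.1 hσ b))
  have h1 := hm_sb hψ D.ok
  have h2 : (fun v b => s b v) ∈ TS kk D.t := hs
  refine mem_Am.2 fun c => D.mem_V_iff.1 ((D.mem_V (hk2 c)).2 ⟨_, h1.mul_mem_TS D.ok h2 c,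
    fun q => ?_⟩)
  have h3 : vv kk D.t (D.sp q) (fun v b => s b v) =
      fun b => (∏ j, D.c q j ^ kk b j) * D.α (σ (b, q)) :=
    funext fun b => (vv_eq_val _ _ _ _ _).trans (hv b q)
  have h4 := congrFun (h1.vv_mul (TS.dl h2) (D.sp q)) c
  rw [vv_eq_val, h3, D.ev_sp] at h4
  refine h4.trans ((congrFun (hψ.mulVec_scl (D.c_ne q) _ _) c).trans ?_)
  rw [mpL_apply, map_sum]
  simp only [Matrix.mulVec, dotProduct, pM, pv_map, map_mul]

variable [IsAlgClosed k]

/-- additivity of the dimensions -/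
theorem finrank_ses (h : HZ kk k0 γ) (h' : HZ kk k1 γ') (hψ : HZ k2 kk ψ) {n' n : ℕ}
    (e : ∀ x, Ex γ' γ ψ n' n (D.t.ev x)) (hk : ∀ b j, (Fintype.card B + 1) * kk b j ≤ N)
    (hk2 : ∀ c j, (Fintype.card B + 1) * k2 c j ≤ N) :
    Module.finrank E (Rb k2 (mm ψ γ) z) + Module.finrank E (Rb kk γ' z) =
      Module.finrank E (Rb kk γ z) := by
  have hn : n ≤ Fintype.card B := (e (D.t.root, none)).r2 ▸ finrank_pR_le γ _
  have hn' := (e (D.t.root, none)).le
  have h1 : ∀ x, LinearMap.ker (pM (mn γ n) (D.t.ev x)).mulVecLin = pR γ (D.t.ev x) :=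
    fun x => pK_mn (e x).r2
  have h2 : ∀ x, pR γ' (D.t.ev x) = LinearMap.ker (pM (mn γ n) (D.t.ev x)).mulVecLin ⊓
      LinearMap.ker (pM ψ (D.t.ev x)).mulVecLin := fun x => by rw [h1]; exact (e x).ex.symm
  have h3 := (hm_sb (h.mn n) D.ok).finrank_ses D.ok (hm_sb hψ D.ok)
    (VG_congr (N := pR γ') h2 (hm_sb h' D.ok).vg_range)
  rw [D.finrank_Rb h (fun x => (e x).r2) fun b j => le_of_card hn (hk b j),
    D.finrank_Rb h' (fun x => (e x).r1) fun b j => le_of_card (hn'.trans hn) (hk b j),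
    D.finrank_Rb (hψ.mm h) (fun x => (e x).r3) fun b j =>
      le_of_card ((Nat.sub_le _ _).trans hn) (hk2 b j),
    ES_congr (N := pR γ) (N' := fun y => LinearMap.ker (pM (mn γ n) y).mulVecLin)
      fun x => (h1 x).symm,
    ES_congr (N := pR γ') (N' := fun y => LinearMap.ker (pM (mn γ n) y).mulVecLin ⊓
      LinearMap.ker (pM ψ y).mulVecLin) h2,
    ES_congr (N := pR (mm ψ γ)) (N' := fun y => (LinearMap.ker (pM (mn γ n) y).mulVecLin).map
      (pM ψ y).mulVecLin) fun x => by rw [h1, pR_mm]]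
  exact h3

/-- **SES** -/
theorem ses (h : HZ kk k0 γ) (h' : HZ kk k1 γ') (hψ : HZ k2 kk ψ) {n' n : ℕ}
    (e : ∀ x, Ex γ' γ ψ n' n (D.t.ev x)) (hk : ∀ b j, (Fintype.card B + 1) * kk b j ≤ N)
    (hk2 : ∀ c j, (Fintype.card B + 1) * k2 c j ≤ N) :
    (Rb kk γ z).map (mpL ψ z) = Rb k2 (mm ψ γ) z ∧
      Rb kk γ z ⊓ LinearMap.ker (mpL ψ z) = Rb kk γ' z := by
  have h1 : Rb kk γ z ⊓ LinearMap.ker (mpL ψ z) = Rb kk γ' z := by
    ext σ
    simp only [Submodule.mem_inf, mem_Rb, mem_ker_mpL, ← fun q => (D.ex_of h h' hψ (e (D.sp q))).ex,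
      forall_and, and_assoc]
  refine ⟨Submodule.eq_of_le_of_finrank_eq ?_ ?_, h1⟩
  · rintro _ ⟨σ, hσ, rfl⟩
    refine mem_Rb.2 ⟨mem_Am.1 (D.mpL_mem hψ (fun b j => le_of_succ_mul (hk b j))
      (fun b j => le_of_succ_mul (hk2 b j)) (Rb_le_Am z hσ)), fun q => ?_⟩
    rw [mpL_at, pR_mm]
    exact ⟨_, (mem_Rb.1 hσ).2 q, rfl⟩
  · have h2 := finrank_map_add_inf (mpL ψ z) (Rb kk γ z)
    have h3 := D.finrank_ses h h' hψ e hk hk2
    rw [h1] at h2
    omega

theorem finrank_Am (D : TD d N z k) (hk : ∀ b j, (Fintype.card B + 1) * kk b j ≤ N) :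
    Module.finrank E (Am kk z) = ∑ b, (dot (kk b) d + 1) := by
  rw [← Rb_idM, D.finrank_Rb (hz_idM kk) (n := Fintype.card B) (fun x => by
    rw [pR_idM, finrank_top, Module.finrank_fintype_fun_eq_card]) hk,
    ES_congr (N' := fun _ => ⊤) fun x => pR_idM _, ES_top, finrank_TS _ D.ok, D.deg]

/-- **LIFT** -/
theorem lift (h' : HZ kk k1 γ') (hψ : HZ k2 kk ψ) {n' : ℕ}
    (e1 : ∀ x, Module.finrank k (pR γ' (D.t.ev x)) = n')
    (e2 : ∀ x, pK ψ (D.t.ev x) = pR γ' (D.t.ev x))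
    (hk : ∀ b j, (Fintype.card B + 1) * kk b j ≤ N)
    (hk2 : ∀ c j, (Fintype.card B + 1) * k2 c j ≤ N) :
    (Am kk z).map (mpL ψ z) = Rb k2 ψ z ∧ Am kk z ⊓ LinearMap.ker (mpL ψ z) = Rb kk γ' z ∧
      Module.finrank E (Rb k2 ψ z) + Module.finrank E (Rb kk γ' z) = ∑ b, (dot (kk b) d + 1) := by
  have e : ∀ x, Ex γ' (idM io B) ψ n' (Fintype.card B) (D.t.ev x) := fun x =>
    ⟨e1 x, by rw [pR_idM, finrank_top, Module.finrank_fintype_fun_eq_card],
      by rw [pR_idM, top_inf_eq, e2]⟩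
  have h1 := D.ses (hz_idM kk) h' hψ e hk hk2
  have h2 := D.finrank_ses (hz_idM kk) h' hψ e hk hk2
  rw [Rb_idM, Rb_congr fun q => pR_mm_idM ψ _] at h1 h2
  exact ⟨h1.1, h1.2, h2.trans (D.finrank_Am hk)⟩

theorem big_eM {n : ℕ} (hn : n ≤ Fintype.card B)
    (hk : ∀ b j, (Fintype.card B + 1) ^ 2 * kk b j ≤ N) (x) (j : J) :
    (Fintype.card B + 1) * eM kk k0 n x j ≤ N := by
  have h1 : eM kk k0 n x j ≤ ∑ i, kk (x.2 i) j := by
    rw [eM, Pi.sub_apply, Finset.sum_apply]; exact Nat.sub_le _ _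
  refine Nat.le_of_mul_le_mul_left ?_ (Nat.succ_pos (Fintype.card B))
  calc _ ≤ (Fintype.card B + 1) ^ 2 * ∑ i, kk (x.2 i) j := by
        rw [← mul_assoc, ← pow_two]; exact Nat.mul_le_mul_left _ h1
    _ ≤ ∑ _i : Fin (n + 1), N := by
        rw [Finset.mul_sum]; exact Finset.sum_le_sum fun i _ => hk _ j
    _ ≤ _ := by simpa using Nat.mul_le_mul_right _ (Nat.succ_le_succ hn)

theorem finrank_mn (h : HZ kk k0 γ) {n : ℕ} (e : ∀ x, Module.finrank k (pR γ (D.t.ev x)) = n)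
    (hk : ∀ b j, (Fintype.card B + 1) ^ 2 * kk b j ≤ N) :
    Module.finrank E (Rb (eM kk k0 n) (mn γ n) z) + Module.finrank E (Rb kk γ z) =
      ∑ b, (dot (kk b) d + 1) :=
  (D.lift h (h.mn n) e (fun x => pK_mn (e x))
    (fun b j => le_of_succ_mul (m := Fintype.card B) (by rw [← mul_assoc, ← pow_two]; exact hk b j))
    (big_eM (e (D.t.root, none) ▸ finrank_pR_le γ _) hk)).2.2

end TD

/-- sections with values in a range of constant rank commute with reduction -/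
theorem Rb_red0 {p : Pl ℂ E ℂ E'} (hp : ∀ c : ℂ, p.r (algebraMap ℂ E c) = algebraMap ℂ E' c)
    (hy : ∀ q j i, z.y q j i ∈ p.V.1) {k k' : Type} [Field k] [Algebra ℂ k] [IsAlgClosed k]
    [Field k'] [Algebra ℂ k'] [IsAlgClosed k'] (D : TD d N z k) (D' : TD d N (z.red0 p) k')
    (h : HZ kk k0 γ) {n : ℕ} (e : ∀ x, Module.finrank k (pR γ (D.t.ev x)) = n)
    (e' : ∀ x, Module.finrank k' (pR γ (D'.t.ev x)) = n)
    (hk : ∀ b j, (Fintype.card B + 1) ^ 2 * kk b j ≤ N) :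
    Rb kk γ (z.red0 p) = redS p (Rb kk γ z) := by
  have r : ∀ q, Module.finrank E (pR γ (z.y q)) = n := fun q => (D.finrank_pR h q).symm.trans (e _)
  have r' : ∀ q, Module.finrank E' (pR γ (redP p (z.y q))) = n := fun q =>
    (D'.finrank_pR h q).symm.trans (e' _)
  have h1 : redS p (Rb kk γ z) ≤ Rb kk γ (z.red0 p) :=
    redS_Rb_le hp hy fun q => (r' q).trans (r q).symm
  have h2 : redS p (Rb (eM kk k0 n) (mn γ n) z) ≤ Rb (eM kk k0 n) (mn γ n) (z.red0 p) :=
    redS_Rb_le hp hy fun q => by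
      have h3 := finrank_pR_add_pK (mn γ n) (z.y q)
      have h4 := finrank_pR_add_pK (mn γ n) (redP p (z.y q))
      rw [pK_mn (r q), r] at h3
      rw [pK_mn (r' q), r'] at h4
      omega
  have h3 := Submodule.finrank_mono h2
  have h4 := Submodule.finrank_mono h1
  have h5 := D.finrank_mn h e hk
  have h6 := D'.finrank_mn h e' hk
  rw [finrank_redS] at h3 h4
  exact (Submodule.eq_of_le_of_finrank_eq h1 (by rw [finrank_redS]; omega)).symm

end Crest.Agent.X262.Tree87
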