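import Mathlib

/-!
Row 262, road B, package Tree87, part P: linear algebra of polynomial matrices on `P^1`.

A point of `P^1(k)` is `p : Option k` (`none` = infinity).  A polynomial of formal degree
`n : ℤ` (`DL n f`; zero if `n < 0`) has the value `ev n p f` at `p`.  Vectors have a degree
vector `e : ι → ℤ`.  A "bundle" is the pointwise kernel `Kr ρ e' e p` of a polynomial matrix
`ρ : ⊕ O(e j) → ⊕ O(e' i)`.
-/

namespace Crest.Agent.X262.Tree87

open Polynomial

variable {k : Type*} [Field k]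

/-- `f` is a form of formal degree `n` -/
def DL (n : ℤ) (f : k[X]) : Prop := ∀ j : ℕ, n < j → f.coeff j = 0

theorem DL.zero (n : ℤ) : DL n (0 : k[X]) := fun _ _ => rfl

theorem DL.add {n : ℤ} {f g : k[X]} (hf : DL n f) (hg : DL n g) : DL n (f + g) := fun j h => by
  rw [coeff_add, hf j h, hg j h, add_zero]

theorem DL.sub {n : ℤ} {f g : k[X]} (hf : DL n f) (hg : DL n g) : DL n (f - g) := fun j h => by
  rw [coeff_sub, hf j h, hg j h, sub_zero]

theorem DL.smul {n : ℤ} {f : k[X]} (hf : DL n f) (c : k) : DL n (c • f) := fun j h => by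
  rw [coeff_smul, hf j h, smul_zero]

theorem DL.sum {α : Type*} {n : ℤ} {s : Finset α} {f : α → k[X]} (h : ∀ i ∈ s, DL n (f i)) :
    DL n (∑ i ∈ s, f i) := fun j hj => by
  rw [finsetSum_coeff]; exact Finset.sum_eq_zero fun i hi => h i hi j hj

theorem DL.mono {n n' : ℤ} {f : k[X]} (hf : DL n f) (h : n ≤ n') : DL n' f := fun j hj =>
  hf j (lt_of_le_of_lt h hj)

theorem DL.eq_zero {n : ℤ} {f : k[X]} (hf : DL n f) (h : n < 0) : f = 0 :=
  Polynomial.ext fun j => hf j (lt_of_lt_of_le h (Int.natCast_nonneg j))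

theorem DL_nat {n : ℕ} {f : k[X]} : DL n f ↔ f.natDegree ≤ n := by
  rw [natDegree_le_iff_coeff_eq_zero]
  exact forall_congr' fun j => by rw [Nat.cast_lt]

theorem DL_natDegree (f : k[X]) : DL f.natDegree f := DL_nat.2 le_rfl

theorem DL.natDegree_le {n : ℤ} {f : k[X]} (hf : DL n f) (h0 : f ≠ 0) : (f.natDegree : ℤ) ≤ n := by
  by_contra h
  exact h0 (leadingCoeff_eq_zero.1 (hf _ (not_le.1 h)))

/-- value at `p` of a polynomial of formal degree `n` -/
noncomputable def ev (n : ℤ) : Option k → k[X] →ₗ[k] k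
  | none => if 0 ≤ n then lcoeff k n.toNat else 0
  | some a => leval a

@[simp] theorem ev_none_nat (n : ℕ) (f : k[X]) : ev (n : ℤ) none f = f.coeff n := by
  simp [ev]

theorem ev_none_neg {n : ℤ} (h : n < 0) (f : k[X]) : ev n none f = 0 := by
  simp [ev, not_le.2 h]

@[simp] theorem ev_some (n : ℤ) (a : k) (f : k[X]) : ev n (some a) f = f.eval a := by
  simp [ev]

theorem DL.ev_none_eq_zero {n n' : ℤ} {f : k[X]} (hf : DL n f) (h : n < n') :
    ev n' none f = 0 := by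
  rcases lt_or_ge n' 0 with h0 | h0
  · exact ev_none_neg h0 f
  · lift n' to ℕ using h0
    rw [ev_none_nat]; exact hf _ h

theorem DL.pred {n : ℤ} {f : k[X]} (hf : DL n f) (h : ev n none f = 0) : DL (n - 1) f := by
  intro j hj
  rcases eq_or_lt_of_le (show n ≤ j by omega) with h1 | h1
  · rw [h1, ev_none_nat] at h; exact h
  · exact hf j h1

theorem DL.mul_ev {n n' : ℤ} {f g : k[X]} (hf : DL n f) (hg : DL n' g) :
    DL (n + n') (f * g) ∧ ∀ p, ev (n + n') p (f * g) = ev n p f * ev n' p g := by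
  rcases lt_or_ge n 0 with h | h
  · rw [hf.eq_zero h]; simp [DL.zero]
  rcases lt_or_ge n' 0 with h' | h'
  · rw [hg.eq_zero h']; simp [DL.zero]
  lift n to ℕ using h
  lift n' to ℕ using h'
  rw [DL_nat] at hf hg
  rw [← Nat.cast_add]
  refine ⟨DL_nat.2 (natDegree_mul_le_of_le hf hg), fun p => ?_⟩
  cases p with
  | none => simpa only [ev_none_nat] using coeff_mul_add_eq_of_natDegree_le hf hg
  | some a => simp

theorem DL.mul {n n' : ℤ} {f g : k[X]} (hf : DL n f) (hg : DL n' g) : DL (n + n') (f * g) :=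
  (hf.mul_ev hg).1

theorem ev_mul {n n' : ℤ} {f g : k[X]} (hf : DL n f) (hg : DL n' g) (p : Option k) :
    ev (n + n') p (f * g) = ev n p f * ev n' p g := (hf.mul_ev hg).2 p

theorem DL_C (a : k) : DL 0 (C a) := (DL_nat (n := 0)).2 (by simp)

theorem DL_one : DL 0 (1 : k[X]) := DL_C 1

theorem ev_C_zero (p : Option k) (a : k) : ev 0 p (C a) = a := by
  cases p with
  | none => exact (ev_none_nat 0 _).trans (by simp)
  | some a => simp

theorem ev_one (p : Option k) : ev 0 p (1 : k[X]) = 1 := ev_C_zero p 1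

theorem ev_prod {α : Type*} (s : Finset α) (e : α → ℤ) (f : α → k[X])
    (h : ∀ i ∈ s, DL (e i) (f i)) :
    DL (∑ i ∈ s, e i) (∏ i ∈ s, f i) ∧
      ∀ p, ev (∑ i ∈ s, e i) p (∏ i ∈ s, f i) = ∏ i ∈ s, ev (e i) p (f i) := by
  classical
  induction s using Finset.induction_on with
  | empty => simp [ev_one, DL_one]
  | insert a s ha ih =>
    obtain ⟨h1, h2⟩ := ih fun i hi => h i (Finset.mem_insert_of_mem hi)
    have h0 := h a (Finset.mem_insert_self a s)
    simp only [Finset.prod_insert ha, Finset.sum_insert ha]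
    exact ⟨h0.mul h1, fun p => by rw [ev_mul h0 h1, h2]⟩


theorem DL.eq_zero_of_forall [Infinite k] {f : k[X]} (n : ℤ) (h : ∀ p, ev n p f = 0) : f = 0 :=
  Polynomial.funext fun a => by simpa using h (some a)

/-- a form of degree `n ≥ 0` with value `1` at `p` -/
theorem exists_ev_eq_one {n : ℤ} (hn : 0 ≤ n) (p : Option k) :
    ∃ q : k[X], DL n q ∧ ev n p q = 1 := by
  lift n to ℕ using hn
  cases p with
  | none => exact ⟨X ^ n, DL_nat.2 (by simp), by simp⟩
  | some a => exact ⟨1, DL_nat.2 (by simp), by simp⟩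

section vec

variable {ι ι' : Type*}

/-- value of a vector of forms -/
noncomputable def evv (e : ι → ℤ) (p : Option k) : (ι → k[X]) →ₗ[k] (ι → k) :=
  LinearMap.pi fun i => (ev (e i) p).comp (LinearMap.proj i)

@[simp] theorem evv_apply (e : ι → ℤ) (p : Option k) (σ : ι → k[X]) (i : ι) :
    evv e p σ i = ev (e i) p (σ i) := rfl

/-- vectors of forms of formal degrees `e` -/
noncomputable def Wd (k : Type*) [Field k] (e : ι → ℤ) : Submodule k (ι → k[X]) where
  carrier := {σ | ∀ i, DL (e i) (σ i)}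
  zero_mem' := fun _ => DL.zero _
  add_mem' := fun ha hb i => (ha i).add (hb i)
  smul_mem' := fun c _ ha i => (ha i).smul c

theorem mem_Wd {e : ι → ℤ} {σ : ι → k[X]} : σ ∈ Wd k e ↔ ∀ i, DL (e i) (σ i) := Iff.rfl

/-- sections of formal degrees `e` of a field of subspaces -/
noncomputable def Sec (e : ι → ℤ) (N : Option k → Submodule k (ι → k)) :
    Submodule k (ι → k[X]) :=
  Wd k e ⊓ ⨅ p, (N p).comap (evv e p)

theorem mem_Sec {e : ι → ℤ} {N : Option k → Submodule k (ι → k)} {σ : ι → k[X]} :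
    σ ∈ Sec e N ↔ (∀ i, DL (e i) (σ i)) ∧ ∀ p, evv e p σ ∈ N p := by
  simp [Sec, mem_Wd]

/-- `N` is generated by its sections of formal degrees `e` -/
def Gen (e : ι → ℤ) (N : Option k → Submodule k (ι → k)) : Prop :=
  ∀ p, ∀ v ∈ N p, ∃ σ ∈ Sec e N, evv e p σ = v

/-- twisted degree vector -/
def tw (e : ι → ℤ) (l : ℤ) : ι → ℤ := fun i => l + e i

@[simp] theorem tw_apply (e : ι → ℤ) (l : ℤ) (i : ι) : tw e l i = l + e i := rfl

@[simp] theorem tw_zero (e : ι → ℤ) : tw e 0 = e := funext fun _ => zero_add _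

theorem tw_tw (e : ι → ℤ) (l l' : ℤ) : tw (tw e l) l' = tw e (l' + l) :=
  funext fun _ => (add_assoc _ _ _).symm

theorem evv_smul {n : ℤ} {e : ι → ℤ} {q : k[X]} {σ : ι → k[X]} (hq : DL n q)
    (hσ : ∀ i, DL (e i) (σ i)) :
    (∀ i, DL (tw e n i) ((q • σ) i)) ∧ ∀ p, evv (tw e n) p (q • σ) = ev n p q • evv e p σ :=
  ⟨fun i => hq.mul (hσ i), fun p => funext fun i => by simp [ev_mul hq (hσ i)]⟩

theorem smul_mem_Sec {n : ℤ} {e : ι → ℤ} {N : Option k → Submodule k (ι → k)} {q : k[X]}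
    {σ : ι → k[X]} (hq : DL n q) (hσ : σ ∈ Sec e N) : q • σ ∈ Sec (tw e n) N := by
  obtain ⟨h1, h2⟩ := mem_Sec.1 hσ
  refine mem_Sec.2 ⟨(evv_smul hq h1).1, fun p => ?_⟩
  rw [(evv_smul hq h1).2]
  exact (N p).smul_mem _ (h2 p)

theorem exists_Sec_up {e : ι → ℤ} {n : ℤ} (h : 0 ≤ n) {N : Option k → Submodule k (ι → k)}
    {σ : ι → k[X]} (hσ : σ ∈ Sec e N) (p : Option k) :
    ∃ τ ∈ Sec (tw e n) N, evv (tw e n) p τ = evv e p σ := by
  obtain ⟨q, hq, hq1⟩ := exists_ev_eq_one h p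
  exact ⟨q • σ, smul_mem_Sec hq hσ, by rw [(evv_smul hq (mem_Sec.1 hσ).1).2, hq1, one_smul]⟩

/-- sections of `N(-d a)`, `d a ≥ 0`, spanning every fibre give `Gen e` -/
theorem gen_of_span {α : Type*} {e : ι → ℤ} {N : Option k → Submodule k (ι → k)} (d : α → ℤ)
    (m : α → ι → k[X]) (hd : ∀ a, 0 ≤ d a) (hm : ∀ a, m a ∈ Sec (tw e (-d a)) N)
    (hsp : ∀ p, N p ≤ Submodule.span k (Set.range fun a => evv (tw e (-d a)) p (m a))) :
    Gen e N := by
  intro p v hv
  have : Submodule.span k (Set.range fun a => evv (tw e (-d a)) p (m a)) ≤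
      (Sec e N).map (evv e p) := by
    rw [Submodule.span_le]
    rintro _ ⟨a, rfl⟩
    obtain ⟨τ, h1, h2⟩ := exists_Sec_up (hd a) (hm a) p
    rw [tw_tw, add_neg_cancel, tw_zero] at h1 h2
    exact ⟨τ, h1, h2⟩
  obtain ⟨σ, h1, h2⟩ := this (hsp p hv)
  exact ⟨σ, h1, h2⟩

theorem Gen.twist {e : ι → ℤ} {n : ℤ} (h : 0 ≤ n) {N : Option k → Submodule k (ι → k)}
    (hN : Gen e N) : Gen (tw e n) N := by
  intro p v hv
  obtain ⟨σ, h1, h2⟩ := hN p v hv
  obtain ⟨τ, h3, h4⟩ := exists_Sec_up h h1 p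
  exact ⟨τ, h3, h4.trans h2⟩

/-- divide a vector vanishing at `a` by `X - a` -/
theorem exists_eq_X_sub_smul (a : k) (σ : ι → k[X]) (h : ∀ i, (σ i).eval a = 0) :
    ∃ σ' : ι → k[X], σ = (X - C a) • σ' := by
  choose σ' hσ' using fun i => dvd_iff_isRoot.2 (h i)
  exact ⟨σ', funext hσ'⟩

/-- `ρ` is a map `⊕ O(e j) → ⊕ O(e' i)` -/
def DM (e' : ι' → ℤ) (e : ι → ℤ) (ρ : Matrix ι' ι k[X]) : Prop := ∀ i j, DL (e' i - e j) (ρ i j)

/-- value of a polynomial matrix -/
noncomputable def evM (e' : ι' → ℤ) (e : ι → ℤ) (p : Option k) (ρ : Matrix ι' ι k[X]) :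
    Matrix ι' ι k :=
  fun i j => ev (e' i - e j) p (ρ i j)

theorem DM.twist {e' : ι' → ℤ} {e : ι → ℤ} {ρ : Matrix ι' ι k[X]} (h : DM e' e ρ) (l : ℤ) :
    DM (tw e' l) (tw e l) ρ := fun i j => by
  simpa only [tw_apply, add_sub_add_left_eq_sub] using h i j


variable [Fintype ι]

/-- pointwise kernel -/
noncomputable def Kr (ρ : Matrix ι' ι k[X]) (e' : ι' → ℤ) (e : ι → ℤ) (p : Option k) :
    Submodule k (ι → k) :=
  LinearMap.ker (evM e' e p ρ).mulVecLin

/-- pointwise range -/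
noncomputable def Rg (ρ : Matrix ι' ι k[X]) (e' : ι' → ℤ) (e : ι → ℤ) (p : Option k) :
    Submodule k (ι' → k) :=
  LinearMap.range (evM e' e p ρ).mulVecLin

theorem mem_Kr {ρ : Matrix ι' ι k[X]} {e' : ι' → ℤ} {e : ι → ℤ} {p : Option k} {v : ι → k} :
    v ∈ Kr ρ e' e p ↔ (evM e' e p ρ).mulVec v = 0 := by
  simp [Kr]

theorem mem_Rg {ρ : Matrix ι' ι k[X]} {e' : ι' → ℤ} {e : ι → ℤ} {p : Option k} {v : ι' → k} :
    v ∈ Rg ρ e' e p ↔ ∃ u, (evM e' e p ρ).mulVec u = v := by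
  simp [Rg]

theorem DM.mulVec {ρ : Matrix ι' ι k[X]} {e' : ι' → ℤ} {e : ι → ℤ} (hρ : DM e' e ρ) (l : ℤ)
    {σ : ι → k[X]} (hσ : ∀ i, DL (tw e l i) (σ i)) :
    (∀ i, DL (tw e' l i) (ρ.mulVec σ i)) ∧
      ∀ p, evv (tw e' l) p (ρ.mulVec σ) = (evM e' e p ρ).mulVec (evv (tw e l) p σ) := by
  have h1 : ∀ i j, tw e' l i = e' i - e j + tw e l j := fun i j => by simp only [tw_apply]; ring
  constructor
  · intro i
    unfold Matrix.mulVec dotProduct
    exact DL.sum fun j _ => by rw [h1 i j]; exact (hρ i j).mul (hσ j)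
  · intro p
    funext i
    simp only [evv_apply, Matrix.mulVec, dotProduct, map_sum, evM]
    exact Finset.sum_congr rfl fun j _ => by rw [h1 i j]; exact ev_mul (hρ i j) (hσ j) p

theorem DM.mulVec₀ {ρ : Matrix ι' ι k[X]} {e' : ι' → ℤ} {e : ι → ℤ} (hρ : DM e' e ρ)
    {σ : ι → k[X]} (hσ : ∀ i, DL (e i) (σ i)) :
    (∀ i, DL (e' i) (ρ.mulVec σ i)) ∧
      ∀ p, evv e' p (ρ.mulVec σ) = (evM e' e p ρ).mulVec (evv e p σ) := by
  have := hρ.mulVec 0 (σ := σ) (by simpa using hσ)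
  simpa only [tw_zero] using this

/-- sections of the kernel field = polynomial kernel vectors of bounded degree -/
theorem mem_Sec_Kr [Infinite k] {ρ : Matrix ι' ι k[X]} {e' : ι' → ℤ} {e : ι → ℤ}
    (hρ : DM e' e ρ) (l : ℤ) {σ : ι → k[X]} :
    σ ∈ Sec (tw e l) (Kr ρ e' e) ↔ (∀ i, DL (tw e l i) (σ i)) ∧ ρ.mulVec σ = 0 := by
  rw [mem_Sec]
  refine and_congr_right fun h1 => ⟨fun h => ?_, fun h p => ?_⟩
  · funext i
    refine DL.eq_zero_of_forall (tw e' l i) fun p => ?_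
    have := mem_Kr.1 (h p)
    rw [← (hρ.mulVec l h1).2] at this
    exact congrFun this i
  · rw [mem_Kr, ← (hρ.mulVec l h1).2, h, map_zero]

theorem mem_Sec_Kr₀ [Infinite k] {ρ : Matrix ι' ι k[X]} {e' : ι' → ℤ} {e : ι → ℤ}
    (hρ : DM e' e ρ) {σ : ι → k[X]} :
    σ ∈ Sec e (Kr ρ e' e) ↔ (∀ i, DL (e i) (σ i)) ∧ ρ.mulVec σ = 0 := by
  simpa only [tw_zero] using mem_Sec_Kr hρ 0 (σ := σ)


/-- generic solvability: a vector lying in the range at every finite point has a nonzero multiple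
in the polynomial range -/
theorem exists_smul_eq_mulVec [Infinite k] [Fintype ι'] (ρ : Matrix ι' ι k[X]) (e' : ι' → ℤ)
    (e : ι → ℤ) (τ : ι' → k[X]) (h : ∀ a : k, (fun i => (τ i).eval a) ∈ Rg ρ e' e (some a)) :
    ∃ g : k[X], g ≠ 0 ∧ ∃ σ, ρ.mulVec σ = g • τ := by
  classical
  set M : Submodule k[X] (ι' → k[X]) := LinearMap.range ρ.mulVecLin with hM
  set T := Submodule.torsion k[X] ((ι' → k[X]) ⧸ M) with hT
  by_cases hτ : M.mkQ τ ∈ T
  · obtain ⟨g, hg⟩ := hτ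
    refine ⟨g, nonZeroDivisors.coe_ne_zero g, ?_⟩
    have : M.mkQ ((g : k[X]) • τ) = 0 := by rw [map_smul]; exact hg
    obtain ⟨σ, hσ⟩ := (Submodule.Quotient.mk_eq_zero M).1 this
    exact ⟨σ, hσ⟩
  · exfalso
    have hne : T.mkQ (M.mkQ τ) ≠ 0 := fun h0 => hτ ((Submodule.Quotient.mk_eq_zero T).1 h0)
    obtain ⟨φ, hφ⟩ : ∃ φ : Module.Dual k[X] (((ι' → k[X]) ⧸ M) ⧸ T), φ (T.mkQ (M.mkQ τ)) ≠ 0 := by
      by_contra hcon
      push Not at hcon
      exact hne ((Module.forall_dual_apply_eq_zero_iff k[X] _).1 hcon)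
    set ψ : (ι' → k[X]) →ₗ[k[X]] k[X] := φ.comp (T.mkQ.comp M.mkQ) with hψ
    have hψ1 : ∀ x, ψ x = ∑ i, x i * ψ (Pi.single i 1) := by
      intro x
      conv_lhs => rw [pi_eq_sum_univ' x]
      rw [map_sum]
      exact Finset.sum_congr rfl fun i _ => by rw [map_smul, smul_eq_mul]
    have hψ2 : ∀ j, ψ (fun i => ρ i j) = 0 := by
      intro j
      have : M.mkQ (fun i => ρ i j) = 0 :=
        (Submodule.Quotient.mk_eq_zero M).2 ⟨Pi.single j 1, by
          funext i; simp [Matrix.mulVec, dotProduct, Pi.single_apply]⟩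
      simp [hψ, this]
    apply hφ
    change ψ τ = 0
    apply Polynomial.funext
    intro a
    obtain ⟨u, hu⟩ := mem_Rg.1 (h a)
    rw [hψ1, eval_finsetSum, eval_zero]
    have h3 : ∀ i, (τ i).eval a = ∑ j, (ρ i j).eval a * u j := fun i => by
      have := congrFun hu i
      simp only [Matrix.mulVec, dotProduct, evM, ev_some] at this
      exact this.symm
    simp only [eval_mul, h3, Finset.sum_mul]
    rw [Finset.sum_comm]
    refine Finset.sum_eq_zero fun j _ => ?_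
    have h4 := congrArg (eval a) ((hψ1 fun i => ρ i j).symm.trans (hψ2 j))
    rw [eval_finsetSum, eval_zero] at h4
    simp only [eval_mul] at h4
    calc ∑ i, (ρ i j).eval a * u j * (ψ (Pi.single i 1)).eval a
        = u j * ∑ i, (ρ i j).eval a * (ψ (Pi.single i 1)).eval a := by
          rw [Finset.mul_sum]; exact Finset.sum_congr rfl fun i _ => by ring
      _ = 0 := by rw [h4, mul_zero]

/-- affine solvability -/
theorem exists_mulVec_eq [IsAlgClosed k] [Fintype ι'] {ρ : Matrix ι' ι k[X]} {e' : ι' → ℤ}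
    {e : ι → ℤ} (hρ : DM e' e ρ) (hG : Gen e (Kr ρ e' e))
    (τ : ι' → k[X]) (h : ∀ a : k, (fun i => (τ i).eval a) ∈ Rg ρ e' e (some a)) :
    ∃ σ, ρ.mulVec σ = τ := by
  obtain ⟨g, hg, σ, hσ⟩ := exists_smul_eq_mulVec ρ e' e τ h
  induction hn : g.natDegree using Nat.strong_induction_on generalizing g σ with
  | _ n ih =>
    by_cases h0 : g.natDegree = 0
    · obtain ⟨c, rfl⟩ := natDegree_eq_zero.1 h0
      have hc : c ≠ 0 := fun hc => hg (by simp [hc])
      refine ⟨(C c⁻¹ : k[X]) • σ, ?_⟩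
      rw [Matrix.mulVec_smul, hσ, smul_smul, ← C_mul, inv_mul_cancel₀ hc, C_1, one_smul]
    · obtain ⟨a, ha⟩ := IsAlgClosed.exists_root g (by
        intro hd; exact h0 (natDegree_eq_zero_iff_degree_le_zero.2 hd.le))
      have hv : (fun i => (σ i).eval a) ∈ Kr ρ e' e (some a) := by
        rw [mem_Kr]
        funext i
        have := congrArg (eval a) (congrFun hσ i)
        simp only [Matrix.mulVec, dotProduct, eval_finsetSum, eval_mul, Pi.smul_apply,
          smul_eq_mul, ha.eq_zero, zero_mul] at this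
        simpa [Matrix.mulVec, dotProduct, evM] using this
      obtain ⟨m, hm, hma⟩ := hG _ _ hv
      have hm0 := ((mem_Sec_Kr₀ hρ).1 hm).2
      obtain ⟨σ', hσ'⟩ := exists_eq_X_sub_smul a (σ - m) fun i => by
        have := congrFun hma i
        simp only [evv_apply, ev_some] at this
        simp [this]
      obtain ⟨g', rfl⟩ := dvd_iff_isRoot.2 ha
      have hg' : g' ≠ 0 := right_ne_zero_of_mul hg
      have h5 : ρ.mulVec σ' = g' • τ := by
        have h6 : (X - C a : k[X]) • ρ.mulVec σ' = (X - C a : k[X]) • g' • τ := by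
          rw [← Matrix.mulVec_smul, ← hσ', Matrix.mulVec_sub, hm0, sub_zero, hσ, smul_smul]
        exact smul_right_injective _ (X_sub_C_ne_zero a) h6
      refine ih g'.natDegree ?_ g' hg' σ' h5 rfl
      rw [← hn, natDegree_mul (X_sub_C_ne_zero a) hg', natDegree_X_sub_C]
      omega

omit [Field k] in
theorem exists_bound (f : ι → ℤ) : ∃ l : ℕ, ∀ i, f i ≤ l :=
  ⟨∑ i, (f i).natAbs, fun i => Int.le_natAbs.trans (by
    exact_mod_cast Finset.single_le_sum (f := fun i => (f i).natAbs) (fun _ _ => Nat.zero_le _)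
      (Finset.mem_univ i))⟩

theorem exists_DL_tw (e : ι → ℤ) (σ : ι → k[X]) : ∃ l : ℕ, ∀ i, DL (tw e l i) (σ i) := by
  obtain ⟨l, hl⟩ := exists_bound fun i => ((σ i).natDegree : ℤ) - e i
  exact ⟨l, fun i => (DL_natDegree _).mono (by have := hl i; simp only [tw_apply]; omega)⟩

/-- (LIFT) sections of the range field come from vectors of forms of the expected degree -/
theorem lift [IsAlgClosed k] [Fintype ι'] {ρ : Matrix ι' ι k[X]} {e' : ι' → ℤ} {e : ι → ℤ}
    (hρ : DM e' e ρ) (hG : Gen e (Kr ρ e' e)) {τ : ι' → k[X]} (hτ : τ ∈ Sec e' (Rg ρ e' e)) :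
    ∃ σ, (∀ i, DL (e i) (σ i)) ∧ ρ.mulVec σ = τ := by
  obtain ⟨h1, h2⟩ := mem_Sec.1 hτ
  obtain ⟨σ, hσ⟩ := exists_mulVec_eq hρ hG τ fun a => by
    have := h2 (some a)
    convert this using 1
    funext i; simp
  obtain ⟨l, hl⟩ := exists_DL_tw e σ
  induction l generalizing σ with
  | zero => exact ⟨σ, by simpa using hl, hσ⟩
  | succ l ih =>
    have hv : evv (tw e (l + 1 : ℕ)) none σ ∈ Kr ρ e' e none := by
      rw [mem_Kr, ← (hρ.mulVec _ hl).2, hσ]
      funext i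
      exact (h1 i).ev_none_eq_zero (by simp only [tw_apply]; omega)
    obtain ⟨m, hm, hmv⟩ := hG _ _ hv
    obtain ⟨hm1, hm0⟩ := (mem_Sec_Kr₀ hρ).1 hm
    obtain ⟨q, hq, hq1⟩ := exists_ev_eq_one (k := k) (n := (l + 1 : ℕ)) (by omega) none
    obtain ⟨h3, h4⟩ := evv_smul hq hm1
    refine ih (σ - q • m) ?_ fun i => ?_
    · rw [Matrix.mulVec_sub, Matrix.mulVec_smul, hm0, smul_zero, sub_zero, hσ]
    · have h5 := congrFun (h4 none) i
      rw [hq1, one_smul, hmv] at h5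
      have h6 := ((hl i).sub (h3 i)).pred (by
        rw [map_sub]; exact sub_eq_zero.2 h5.symm)
      refine h6.mono (le_of_eq ?_)
      simp only [tw_apply]; push_cast; ring

/-- (LIFT) with a prescribed value at one point -/
theorem lift_at [IsAlgClosed k] [Fintype ι'] {ρ : Matrix ι' ι k[X]} {e' : ι' → ℤ} {e : ι → ℤ}
    (hρ : DM e' e ρ) (hG : Gen e (Kr ρ e' e)) {τ : ι' → k[X]} (hτ : τ ∈ Sec e' (Rg ρ e' e))
    (p : Option k) (u : ι → k) (hu : (evM e' e p ρ).mulVec u = evv e' p τ) :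
    ∃ σ, (∀ i, DL (e i) (σ i)) ∧ ρ.mulVec σ = τ ∧ evv e p σ = u := by
  obtain ⟨σ, h1, h2⟩ := lift hρ hG hτ
  have hv : u - evv e p σ ∈ Kr ρ e' e p := by
    rw [mem_Kr, Matrix.mulVec_sub, hu, ← (hρ.mulVec₀ h1).2, h2, sub_self]
  obtain ⟨m, hm, hmv⟩ := hG _ _ hv
  obtain ⟨hm1, hm0⟩ := (mem_Sec_Kr₀ hρ).1 hm
  refine ⟨σ + m, fun i => (h1 i).add (hm1 i), ?_, ?_⟩
  · rw [Matrix.mulVec_add, hm0, add_zero, h2]
  · rw [map_add, hmv, add_sub_cancel]

omit [Fintype ι] in
/-- if the range of `Jm : ⊕ O(d a) → ⊕ O(e i)`, `d a ≥ 0`, is `N` at every point then `N` is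
generated -/
theorem gen_of_Rg {α : Type*} [Fintype α] {e : ι → ℤ} {d : α → ℤ} (hd : ∀ a, 0 ≤ d a)
    {Jm : Matrix ι α k[X]} (hJ : DM e d Jm) : Gen e (Rg Jm e d) := by
  classical
  have h1 : ∀ a p, evv (tw e (-d a)) p (fun i => Jm i a) = fun i => evM e d p Jm i a := by
    intro a p; funext i
    simp only [evv_apply, tw_apply, evM]
    rw [neg_add_eq_sub]
  refine gen_of_span d (fun a i => Jm i a) hd (fun a => mem_Sec.2 ⟨fun i => ?_, fun p => ?_⟩)
    fun p v hv => ?_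
  · rw [tw_apply, neg_add_eq_sub]; exact hJ i a
  · rw [h1]
    exact mem_Rg.2 ⟨Pi.single a 1, by
      funext i; simp [Matrix.mulVec, dotProduct, Pi.single_apply]⟩
  · obtain ⟨u, rfl⟩ := mem_Rg.1 hv
    rw [Submodule.mem_span_range_iff_exists_fun]
    refine ⟨u, ?_⟩
    funext i
    simp only [h1, Finset.sum_apply, Pi.smul_apply, smul_eq_mul, Matrix.mulVec, dotProduct]
    exact Finset.sum_congr rfl fun a _ => mul_comm _ _

end vec

end Crest.Agent.X262.Tree87
private theorem rz_2f196395c0 : type_of% @_root_.Crest.Agent.X262.Tree87.ev.eq_1 := @_root_.Crest.Agent.X262.Tree87.ev.eq_1 -- L53
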