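import Crest.Agent.X262.Tree87.P2
import Crest.Agent.X262.Bub96.Tree

/-!
Row 262, Tree87, part T1: vector-valued sections on a tree of projective lines; evaluation is
onto, dimension count, lifting along a polynomial matrix.
-/

namespace Crest.Agent.X262.Tree87

open Polynomial Crest.Agent.X262.Bub96 Crest.Agent.X262.Bub96.Tr

variable {k : Type*} [Field k] {J : Type*} [Fintype J] {io : J → Type*} {A B : Type*}

theorem ev_eq_hv (n : ℕ) (p : Option k) (f : k[X]) : ev (n : ℤ) p f = hv n f p := by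
  cases p <;> simp

/-- degree vector of `⊕ O(kk a)` on the vertex `v` -/
def vdz (kk : A → J → ℕ) (t : Tr k J io) (v : t.Vx) : A → ℤ := fun a => dot (kk a) (t.vd v)

/-- value of a vector section at a point of the normalisation -/
noncomputable def vv (kk : A → J → ℕ) (t : Tr k J io) (x : t.Pt) :
    (t.Vx → A → k[X]) →ₗ[k] (A → k) :=
  (evv (vdz kk t x.1) x.2).comp (LinearMap.proj x.1)

theorem vv_apply (kk : A → J → ℕ) (t : Tr k J io) (x : t.Pt) (s : t.Vx → A → k[X]) :
    vv kk t x s = evv (vdz kk t x.1) x.2 (s x.1) := rfl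

theorem vv_eq_val (kk : A → J → ℕ) (t : Tr k J io) (x : t.Pt) (s : t.Vx → A → k[X]) (a : A) :
    vv kk t x s a = val (kk a) t (fun v => s v a) x := ev_eq_hv _ _ _

/-- sections of `⊕ O(kk a)` -/
noncomputable def TS (kk : A → J → ℕ) (t : Tr k J io) : Submodule k (t.Vx → A → k[X]) where
  carrier := {s | ∀ a, t.IsSec (kk a) fun v => s v a}
  add_mem' := fun h h' a => (h a).add (h' a)
  zero_mem' := fun _ => isSec_zero _ _
  smul_mem' := fun c _ h a => (h a).smul c


theorem TS.dl {kk : A → J → ℕ} {t : Tr k J io} {s : t.Vx → A → k[X]} (h : s ∈ TS kk t)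
    (v : t.Vx) (a : A) : DL (vdz kk t v a) (s v a) :=
  DL_nat.2 ((h a).natDegree_le v)

/-- sections with values in the field of subspaces `N` -/
noncomputable def ES (kk : A → J → ℕ) (t : Tr k J io)
    (N : ((j : J) → io j → k) → Submodule k (A → k)) : Submodule k (t.Vx → A → k[X]) :=
  TS kk t ⊓ ⨅ x, (N (t.ev x)).comap (vv kk t x)

theorem mem_ES {kk : A → J → ℕ} {t : Tr k J io} {N : ((j : J) → io j → k) → Submodule k (A → k)}
    {s : t.Vx → A → k[X]} : s ∈ ES kk t N ↔ s ∈ TS kk t ∧ ∀ x, vv kk t x s ∈ N (t.ev x) := by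
  simp [ES]

theorem ES_top (kk : A → J → ℕ) (t : Tr k J io) : ES kk t (fun _ => ⊤) = TS kk t := by
  ext s; simp [mem_ES]

theorem mem_TS_leaf {kk : A → J → ℕ} {d : J → ℕ} {g : (j : J) → io j → k[X]}
    {s : (leaf d g : Tr k J io).Vx → A → k[X]} :
    s ∈ TS kk (leaf d g) ↔ ∀ a, DL (vdz kk (leaf d g) () a) (s () a) :=
  forall_congr' fun _ => DL_nat.symm

theorem mem_TS_glue {kk : A → J → ℕ} {T S : Tr k J io} {p : k}
    {s : (glue T p S).Vx → A → k[X]} :
    s ∈ TS kk (glue T p S) ↔ (fun v => s (Sum.inl v)) ∈ TS kk T ∧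
      (fun v => s (Sum.inr v)) ∈ TS kk S ∧
      vv kk S (S.root, none) (fun v => s (Sum.inr v)) =
        vv kk T (T.root, some p) (fun v => s (Sum.inl v)) := by
  constructor
  · intro h
    refine ⟨fun a => (h a).1, fun a => (h a).2.1, funext fun a => ?_⟩
    rw [vv_eq_val, vv_eq_val]; exact (h a).2.2
  · rintro ⟨h1, h2, h3⟩ a
    refine ⟨h1 a, h2 a, ?_⟩
    have := congrFun h3 a
    rwa [vv_eq_val, vv_eq_val] at this

theorem mem_ES_leaf {kk : A → J → ℕ} {d : J → ℕ} {g : (j : J) → io j → k[X]}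
    {N : ((j : J) → io j → k) → Submodule k (A → k)} {s : (leaf d g : Tr k J io).Vx → A → k[X]} :
    s ∈ ES kk (leaf d g) N ↔
      s () ∈ Sec (vdz kk (leaf d g) ()) fun p => N ((leaf d g : Tr k J io).ev ((), p)) := by
  rw [mem_ES, mem_TS_leaf, mem_Sec]
  exact and_congr_right fun _ => ⟨fun h p => h ((), p), fun h x => h x.2⟩

theorem mem_ES_glue {kk : A → J → ℕ} {T S : Tr k J io} {p : k}
    {N : ((j : J) → io j → k) → Submodule k (A → k)} {s : (glue T p S).Vx → A → k[X]} :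
    s ∈ ES kk (glue T p S) N ↔ (fun v => s (Sum.inl v)) ∈ ES kk T N ∧
      (fun v => s (Sum.inr v)) ∈ ES kk S N ∧
      vv kk S (S.root, none) (fun v => s (Sum.inr v)) =
        vv kk T (T.root, some p) (fun v => s (Sum.inl v)) := by
  simp only [mem_ES, mem_TS_glue]
  constructor
  · rintro ⟨⟨h1, h2, h3⟩, h4⟩
    exact ⟨⟨h1, fun x => h4 (Sum.inl x.1, x.2)⟩, ⟨h2, fun x => h4 (Sum.inr x.1, x.2)⟩, h3⟩
  · rintro ⟨⟨h1, h4⟩, ⟨h2, h5⟩, h3⟩
    refine ⟨⟨h1, h2, h3⟩, ?_⟩
    rintro ⟨v | v, x⟩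
    · exact h4 (v, x)
    · exact h5 (v, x)

omit [Fintype J] in
theorem ev_node {T S : Tr k J io} {p : k} (h : (glue T p S).OK) :
    S.ev (S.root, none) = T.ev (T.root, some p) :=
  funext fun j => funext fun i => h.2.2.2 j i

/-- `N` is generated by its sections on every vertex -/
def VG (kk : A → J → ℕ) (t : Tr k J io) (N : ((j : J) → io j → k) → Submodule k (A → k)) : Prop :=
  ∀ v, Gen (vdz kk t v) fun p => N (t.ev (v, p))

/-- (EV) evaluation at any point is onto -/
theorem ES_ev {kk : A → J → ℕ} {N : ((j : J) → io j → k) → Submodule k (A → k)} :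
    ∀ {t : Tr k J io}, t.OK → VG kk t N → ∀ x, ∀ w ∈ N (t.ev x), ∃ s ∈ ES kk t N, vv kk t x s = w
  | leaf d g, _, hG, x, w, hw => by
    obtain ⟨σ, h1, h2⟩ := hG () x.2 w hw
    exact ⟨fun _ => σ, mem_ES_leaf.2 h1, h2⟩
  | glue T p S, ht, hG, (Sum.inl v, x), w, hw => by
    obtain ⟨s, h1, h2⟩ := ES_ev ht.1 (fun v => hG (Sum.inl v)) (v, x) w hw
    obtain ⟨s', h3, h4⟩ := ES_ev ht.2.1 (fun v => hG (Sum.inr v)) (S.root, none)
      (vv kk T (T.root, some p) s) (by rw [ev_node ht]; exact (mem_ES.1 h1).2 _)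
    exact ⟨Sum.elim s s', mem_ES_glue.2 ⟨h1, h3, h4⟩, h2⟩
  | glue T p S, ht, hG, (Sum.inr v, x), w, hw => by
    obtain ⟨s', h1, h2⟩ := ES_ev ht.2.1 (fun v => hG (Sum.inr v)) (v, x) w hw
    obtain ⟨s, h3, h4⟩ := ES_ev ht.1 (fun v => hG (Sum.inl v)) (T.root, some p)
      (vv kk S (S.root, none) s') (by rw [← ev_node ht]; exact (mem_ES.1 h1).2 _)
    exact ⟨Sum.elim s s', mem_ES_glue.2 ⟨h3, h1, h4.symm⟩, h2⟩

theorem finite_DL (n : ℤ) : Module.Finite k (degreeLT k (n + 1).toNat) :=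
  Module.Finite.equiv (degreeLTEquiv k _).symm

/-- `Wd` as a product of spaces of forms -/
noncomputable def wdEquiv (e : A → ℤ) : Wd k e ≃ₗ[k] ∀ a, degreeLT k (e a + 1).toNat where
  toFun s a := ⟨s.1 a, mem_degreeLT_toNat.2 (s.2 a)⟩
  map_add' _ _ := rfl
  map_smul' _ _ := rfl
  invFun s := ⟨fun a => s a, fun a => mem_degreeLT_toNat.1 (s a).2⟩
  left_inv _ := rfl
  right_inv _ := rfl

theorem finite_Wd [Finite A] (e : A → ℤ) : Module.Finite k (Wd k e) := by
  have := fun a => finite_DL (k := k) (e a)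
  exact Module.Finite.equiv (wdEquiv e).symm

theorem finrank_Wd [Fintype A] (e : A → ℤ) :
    Module.finrank k (Wd k e) = ∑ a, (e a + 1).toNat := by
  have := fun a => finite_DL (k := k) (e a)
  rw [(wdEquiv e).finrank_eq, Module.finrank_pi_fintype]
  refine Finset.sum_congr rfl fun i _ => ?_
  rw [(degreeLTEquiv k _).finrank_eq, Module.finrank_fin_fun]


theorem finite_TS [Finite A] (kk : A → J → ℕ) (t : Tr k J io) : Module.Finite k (TS kk t) := by
  have := fun v => finite_Wd (k := k) (vdz kk t v)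
  let f : TS kk t →ₗ[k] ∀ v, Wd k (vdz kk t v) :=
    { toFun := fun s v => ⟨s.1 v, TS.dl s.2 v⟩
      map_add' := fun _ _ => rfl
      map_smul' := fun _ _ => rfl }
  refine Module.Finite.of_injective f fun s s' h => Subtype.ext (funext fun v => ?_)
  exact congrArg Subtype.val (congrFun h v)

theorem finite_ES [Finite A] (kk : A → J → ℕ) (t : Tr k J io)
    (N : ((j : J) → io j → k) → Submodule k (A → k)) : Module.Finite k (ES kk t N) := by
  have := finite_TS kk t
  exact Submodule.finiteDimensional_of_le (inf_le_left : ES kk t N ≤ TS kk t)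

theorem finrank_ES_leaf (kk : A → J → ℕ) (d : J → ℕ) (g : (j : J) → io j → k[X])
    (N : ((j : J) → io j → k) → Submodule k (A → k)) :
    Module.finrank k (ES kk (leaf d g) N) = Module.finrank k
      (Sec (vdz kk (leaf d g) ()) fun p => N ((leaf d g : Tr k J io).ev ((), p))) :=
  LinearEquiv.finrank_eq
    { toFun := fun s => ⟨s.1 (), mem_ES_leaf.1 s.2⟩
      map_add' := fun _ _ => rfl
      map_smul' := fun _ _ => rfl
      invFun := fun s => ⟨fun _ => s.1, mem_ES_leaf.2 s.2⟩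
      left_inv := fun _ => rfl
      right_inv := fun _ => rfl }

/-- the node sequence, dimension form -/
theorem finrank_ES_glue [Finite A] {kk : A → J → ℕ} {T S : Tr k J io} {p : k}
    {N : ((j : J) → io j → k) → Submodule k (A → k)} (ht : (glue T p S).OK)
    (hG : VG kk S N) :
    Module.finrank k (ES kk (glue T p S) N) + Module.finrank k (N (T.ev (T.root, some p))) =
      Module.finrank k (ES kk T N) + Module.finrank k (ES kk S N) := by
  have := finite_ES kk T N
  have := finite_ES kk S N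
  let φ : (ES kk T N × ES kk S N) →ₗ[k] (A → k) :=
    ((vv kk S (S.root, none)).comp (ES kk S N).subtype).comp (LinearMap.snd k _ _) -
      ((vv kk T (T.root, some p)).comp (ES kk T N).subtype).comp (LinearMap.fst k _ _)
  have hφ : ∀ u, φ u = vv kk S (S.root, none) u.2.1 - vv kk T (T.root, some p) u.1.1 :=
    fun _ => rfl
  have hr : LinearMap.range φ = N (T.ev (T.root, some p)) := by
    apply le_antisymm
    · rintro _ ⟨u, rfl⟩
      rw [hφ]
      refine Submodule.sub_mem _ ?_ ((mem_ES.1 u.1.2).2 _)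
      rw [← ev_node ht]; exact (mem_ES.1 u.2.2).2 _
    · intro w hw
      obtain ⟨s, h1, h2⟩ := ES_ev ht.2.1 hG (S.root, none) w (by rw [ev_node ht]; exact hw)
      exact ⟨(0, ⟨s, h1⟩), by rw [hφ]; simpa using h2⟩
  have hk : Module.finrank k (ES kk (glue T p S) N) = Module.finrank k (LinearMap.ker φ) :=
    LinearEquiv.finrank_eq
      { toFun := fun s => ⟨(⟨_, (mem_ES_glue.1 s.2).1⟩, ⟨_, (mem_ES_glue.1 s.2).2.1⟩),
          sub_eq_zero.2 (mem_ES_glue.1 s.2).2.2⟩
        map_add' := fun _ _ => rfl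
        map_smul' := fun _ _ => rfl
        invFun := fun u => ⟨Sum.elim u.1.1.1 u.1.2.1,
          mem_ES_glue.2 ⟨u.1.1.2, u.1.2.2, sub_eq_zero.1 u.2⟩⟩
        left_inv := fun s => Subtype.ext (funext fun v => by rcases v with v | v <;> rfl)
        right_inv := fun _ => rfl }
  rw [hk, ← hr, add_comm, LinearMap.finrank_range_add_finrank_ker, Module.finrank_prod]

omit [Fintype J] in
theorem sum_vx_glue {M : Type*} [AddCommMonoid M] (T S : Tr k J io) (p : k)
    (f : (glue T p S).Vx → M) : ∑ v, f v = ∑ v, f (Sum.inl v) + ∑ v, f (Sum.inr v) :=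
  Fintype.sum_sum_type (α₁ := T.Vx) (α₂ := S.Vx) f

/-- dimension of the sections on a tree from the dimensions on the vertices -/
theorem finrank_ES [Finite A] {kk : A → J → ℕ} {N : ((j : J) → io j → k) → Submodule k (A → k)}
    {c : ℕ} : ∀ {t : Tr k J io}, t.OK → VG kk t N → (∀ x, Module.finrank k (N (t.ev x)) = c) →
    (Module.finrank k (ES kk t N) : ℤ) =
      c + ∑ v, ((Module.finrank k (Sec (vdz kk t v) fun p => N (t.ev (v, p))) : ℤ) - c)
  | leaf d g, _, _, _ => by
    rw [finrank_ES_leaf]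
    change _ = (c : ℤ) + ∑ _v : Unit, _
    simp
  | glue T p S, ht, hG, hc => by
    have h1 := finrank_ES ht.1 (fun v => hG (Sum.inl v)) fun x => hc (Sum.inl x.1, x.2)
    have h2 := finrank_ES ht.2.1 (fun v => hG (Sum.inr v)) fun x => hc (Sum.inr x.1, x.2)
    have h3 := finrank_ES_glue ht fun v => hG (Sum.inr v)
    have h4 : Module.finrank k (N (T.ev (T.root, some p))) = c := hc (Sum.inl T.root, some p)
    rw [h4] at h3
    rw [sum_vx_glue]
    have h5 : (Module.finrank k (ES kk (glue T p S) N) : ℤ) + c =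
      Module.finrank k (ES kk T N) + Module.finrank k (ES kk S N) := by exact_mod_cast h3
    rw [h1, h2] at h5
    change _ = (c : ℤ) + (∑ v, ((Module.finrank k (Sec (vdz kk T v) fun p => N (T.ev (v, p))) : ℤ)
      - c) + ∑ v, ((Module.finrank k (Sec (vdz kk S v) fun p => N (S.ev (v, p))) : ℤ) - c))
    linarith

/-- Riemann-Roch on a tree -/
theorem rr_tree [Infinite k] [Finite A] {kk : A → J → ℕ}
    {N : ((j : J) → io j → k) → Submodule k (A → k)} {c : ℕ} {t : Tr k J io} (ht : t.OK)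
    (S : ∀ v, Split (vdz kk t v) (fun p => N (t.ev (v, p))) c) (hS : ∀ v i, 0 ≤ (S v).α i) :
    (Module.finrank k (ES kk t N) : ℤ) = c + ∑ v, ∑ i, (S v).α i := by
  rw [finrank_ES (c := c) ht (fun v => (S v).gen' (hS v)) fun x => (S x.1).finrank x.2]
  congr 1
  refine Finset.sum_congr rfl fun v _ => ?_
  rw [(S v).rr fun i => le_trans (by norm_num) (hS v i)]
  ring

theorem gen_top {e : A → ℤ} (he : ∀ a, 0 ≤ e a) : Gen e fun _ : Option k => ⊤ := by
  intro p v _
  choose q hq hq1 using fun a => exists_ev_eq_one (k := k) (he a) p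
  refine ⟨fun a => v a • q a, mem_Sec.2 ⟨fun a => (hq a).smul _, fun _ => trivial⟩, ?_⟩
  funext a
  simp [hq1]

theorem vg_top (kk : A → J → ℕ) (t : Tr k J io) : VG kk t fun _ => ⊤ :=
  fun _ => gen_top fun _ => Int.natCast_nonneg _

theorem sum_dot_vd (κ : J → ℕ) (t : Tr k J io) : ∑ v, dot κ (t.vd v) = dot κ t.deg := by
  simp only [dot]
  rw [Finset.sum_comm]
  exact Finset.sum_congr rfl fun j _ => by rw [← Finset.mul_sum, sum_vd]

theorem finrank_TS [Fintype A] (kk : A → J → ℕ) {t : Tr k J io} (ht : t.OK) :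
    Module.finrank k (TS kk t) = ∑ a, (dot (kk a) t.deg + 1) := by
  have h := finrank_ES (c := Fintype.card A) ht (vg_top kk t) fun _ => by simp
  rw [ES_top] at h
  have h1 : ∀ v, (Module.finrank k (Sec (vdz kk t v) fun _ : Option k => ⊤) : ℤ) -
      Fintype.card A = ∑ a, (dot (kk a) (t.vd v) : ℤ) := by
    intro v
    have : (Sec (vdz kk t v) fun _ : Option k => ⊤) = Wd k (vdz kk t v) := by simp [Sec]
    rw [this, finrank_Wd]
    simp only [vdz]
    push_cast
    rw [Finset.sum_congr rfl fun a _ => show (((dot (kk a) (t.vd v) : ℤ) + 1).toNat : ℤ) =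
      dot (kk a) (t.vd v) + 1 by omega, Finset.sum_add_distrib]
    simp
  simp only [h1] at h
  rw [Finset.sum_comm] at h
  have h2 : ∀ a, ∑ v, (dot (kk a) (t.vd v) : ℤ) = dot (kk a) t.deg := fun a => by
    exact_mod_cast sum_dot_vd (kk a) t
  simp only [h2] at h
  zify
  rw [h, Finset.sum_add_distrib]
  simp [add_comm]

/-- scalar sections as vector sections -/
noncomputable def secEquiv (κ : J → ℕ) (t : Tr k J io) : t.Sec κ ≃ₗ[k] TS (fun _ : Unit => κ) t where
  toFun s := ⟨fun v _ => s.1 v, fun _ => s.2⟩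
  map_add' _ _ := rfl
  map_smul' _ _ := rfl
  invFun s := ⟨fun v => s.1 v (), s.2 ()⟩
  left_inv _ := rfl
  right_inv _ := rfl

theorem finite_sec (κ : J → ℕ) (t : Tr k J io) : Module.Finite k (t.Sec κ) := by
  have := finite_TS (fun _ : Unit => κ) t
  exact Module.Finite.equiv (secEquiv κ t).symm

theorem finrank_sec (κ : J → ℕ) {t : Tr k J io} (ht : t.OK) :
    Module.finrank k (t.Sec κ) = dot κ t.deg + 1 := by
  rw [(secEquiv κ t).finrank_eq, finrank_TS _ ht]; simp


section mat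

variable [Fintype A]

/-- `P v` is a polynomial matrix `⊕ O(kk a) → ⊕ O(kk' b)` on the vertex `v` with values `M` -/
def HM (kk' : B → J → ℕ) (kk : A → J → ℕ) (M : ((j : J) → io j → k) → Matrix B A k)
    (t : Tr k J io) (P : t.Vx → Matrix B A k[X]) : Prop :=
  ∀ v, DM (vdz kk' t v) (vdz kk t v) (P v) ∧
    ∀ p, evM (vdz kk' t v) (vdz kk t v) p (P v) = M (t.ev (v, p))

variable {kk' : B → J → ℕ} {kk : A → J → ℕ} {M : ((j : J) → io j → k) → Matrix B A k}

theorem HM.vv_mul {t : Tr k J io} {P : t.Vx → Matrix B A k[X]} (h : HM kk' kk M t P)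
    {s : t.Vx → A → k[X]} (hs : ∀ v a, DL (vdz kk t v a) (s v a)) (x : t.Pt) :
    vv kk' t x (fun v => (P v).mulVec (s v)) = (M (t.ev x)).mulVec (vv kk t x s) := by
  rw [vv_apply, vv_apply, ((h x.1).1.mulVec₀ (hs x.1)).2, (h x.1).2]

theorem HM.mul_mem_TS : ∀ {t : Tr k J io} {P : t.Vx → Matrix B A k[X]}, t.OK → HM kk' kk M t P →
    ∀ {s : t.Vx → A → k[X]}, s ∈ TS kk t → (fun v => (P v).mulVec (s v)) ∈ TS kk' t
  | leaf _ _, _, _, h, _, hs => mem_TS_leaf.2 ((h ()).1.mulVec₀ (TS.dl hs ())).1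
  | glue T p S, P, ht, h, s, hs => by
    obtain ⟨h1, h2, h3⟩ := mem_TS_glue.1 hs
    have hT : HM kk' kk M T fun v => P (Sum.inl v) := fun v => h (Sum.inl v)
    have hS : HM kk' kk M S fun v => P (Sum.inr v) := fun v => h (Sum.inr v)
    refine mem_TS_glue.2 ⟨HM.mul_mem_TS ht.1 hT h1, HM.mul_mem_TS ht.2.1 hS h2, ?_⟩
    have h4 := hS.vv_mul (TS.dl h2) (S.root, none)
    have h5 := hT.vv_mul (TS.dl h1) (T.root, some p)
    rw [h3, ev_node ht] at h4
    exact h4.trans h5.symm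

theorem HM.kr_eq {t : Tr k J io} {P : t.Vx → Matrix B A k[X]} (h : HM kk' kk M t P) (v : t.Vx) :
    Kr (P v) (vdz kk' t v) (vdz kk t v) =
      fun p => LinearMap.ker (M (t.ev (v, p))).mulVecLin :=
  funext fun p => by rw [Kr, (h v).2]

theorem HM.rg_eq {t : Tr k J io} {P : t.Vx → Matrix B A k[X]} (h : HM kk' kk M t P) (v : t.Vx) :
    Rg (P v) (vdz kk' t v) (vdz kk t v) =
      fun p => LinearMap.range (M (t.ev (v, p))).mulVecLin :=
  funext fun p => by rw [Rg, (h v).2]

/-- (LIFT) on a tree, with a prescribed value at one point -/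
theorem HM.lift [IsAlgClosed k] [Fintype B] :
    ∀ {t : Tr k J io} {P : t.Vx → Matrix B A k[X]}, t.OK → HM kk' kk M t P →
    (VG kk t fun y => LinearMap.ker (M y).mulVecLin) →
    ∀ {τ : t.Vx → B → k[X]}, (τ ∈ ES kk' t fun y => LinearMap.range (M y).mulVecLin) →
    ∀ x u, (M (t.ev x)).mulVec u = vv kk' t x τ →
    ∃ s ∈ TS kk t, (fun v => (P v).mulVec (s v)) = τ ∧ vv kk t x s = u
  | leaf d g, P, _, h, hG, τ, hτ, x, u, hu => by
    have hτ' : τ x.1 ∈ Sec (vdz kk' _ x.1)
        fun p => LinearMap.range (M ((leaf d g : Tr k J io).ev (x.1, p))).mulVecLin :=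
      mem_Sec.2 ⟨TS.dl (mem_ES.1 hτ).1 x.1, fun p => (mem_ES.1 hτ).2 (x.1, p)⟩
    have hG' := hG x.1
    rw [← h.rg_eq] at hτ'
    rw [← h.kr_eq] at hG'
    obtain ⟨σ, h1, h2, h3⟩ := lift_at (h x.1).1 hG' hτ' x.2 u (by rw [(h x.1).2]; exact hu)
    exact ⟨fun _ => σ, mem_TS_leaf.2 h1, funext fun _ => h2, h3⟩
  | glue T p S, P, ht, h, hG, τ, hτ, (Sum.inl v, x), u, hu => by
    have hT : HM kk' kk M T fun v => P (Sum.inl v) := fun v => h (Sum.inl v)
    have hS : HM kk' kk M S fun v => P (Sum.inr v) := fun v => h (Sum.inr v)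
    obtain ⟨τ1, τ2, τ3⟩ := mem_ES_glue.1 hτ
    obtain ⟨s, h1, h2, h3⟩ := HM.lift ht.1 hT (fun v => hG (Sum.inl v)) τ1 (v, x) u hu
    obtain ⟨s', h4, h5, h6⟩ := HM.lift ht.2.1 hS (fun v => hG (Sum.inr v)) τ2 (S.root, none)
      (vv kk T (T.root, some p) s) (by
        rw [τ3, ev_node ht, ← hT.vv_mul (TS.dl h1), h2])
    refine ⟨Sum.elim s s', mem_TS_glue.2 ⟨h1, h4, h6⟩, funext fun w => ?_, h3⟩
    rcases w with w | w
    · exact congrFun h2 w
    · exact congrFun h5 w
  | glue T p S, P, ht, h, hG, τ, hτ, (Sum.inr v, x), u, hu => by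
    have hT : HM kk' kk M T fun v => P (Sum.inl v) := fun v => h (Sum.inl v)
    have hS : HM kk' kk M S fun v => P (Sum.inr v) := fun v => h (Sum.inr v)
    obtain ⟨τ1, τ2, τ3⟩ := mem_ES_glue.1 hτ
    obtain ⟨s', h1, h2, h3⟩ := HM.lift ht.2.1 hS (fun v => hG (Sum.inr v)) τ2 (v, x) u hu
    obtain ⟨s, h4, h5, h6⟩ := HM.lift ht.1 hT (fun v => hG (Sum.inl v)) τ1 (T.root, some p)
      (vv kk S (S.root, none) s') (by
        rw [← τ3, ← ev_node ht, ← hS.vv_mul (TS.dl h1), h2])
    refine ⟨Sum.elim s s', mem_TS_glue.2 ⟨h4, h1, h6.symm⟩, funext fun w => ?_, h3⟩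
    rcases w with w | w
    · exact congrFun h5 w
    · exact congrFun h2 w

/-- the matrix as a linear map on sections -/
noncomputable def mulL (t : Tr k J io) (P : t.Vx → Matrix B A k[X]) :
    (t.Vx → A → k[X]) →ₗ[k] (t.Vx → B → k[X]) where
  toFun s v := (P v).mulVec (s v)
  map_add' s s' := funext fun v => Matrix.mulVec_add _ _ _
  map_smul' c s := funext fun v => funext fun b => by
    simp [Matrix.mulVec, dotProduct, Finset.smul_sum]

theorem HM.mem_ES_ker [Infinite k] {t : Tr k J io} {P : t.Vx → Matrix B A k[X]}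
    (h : HM kk' kk M t P) {s : t.Vx → A → k[X]} :
    (s ∈ ES kk t fun y => LinearMap.ker (M y).mulVecLin) ↔ s ∈ TS kk t ∧ mulL t P s = 0 := by
  rw [mem_ES]
  refine and_congr_right fun hs => ⟨fun h1 => funext fun v => ?_, fun h1 x => ?_⟩
  · refine ((mem_Sec_Kr₀ (h v).1).1 ?_).2
    rw [h.kr_eq]
    exact mem_Sec.2 ⟨TS.dl hs v, fun p => h1 (v, p)⟩
  · change (M (t.ev x)).mulVec _ = 0
    rw [← h.vv_mul (TS.dl hs)]
    change vv kk' t x (mulL t P s) = 0
    rw [h1, map_zero]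

theorem HM.map_TS [IsAlgClosed k] [Fintype B] {t : Tr k J io} {P : t.Vx → Matrix B A k[X]}
    (ht : t.OK) (h : HM kk' kk M t P) (hG : VG kk t fun y => LinearMap.ker (M y).mulVecLin) :
    (TS kk t).map (mulL t P) = ES kk' t fun y => LinearMap.range (M y).mulVecLin := by
  apply le_antisymm
  · rintro _ ⟨s, hs, rfl⟩
    exact mem_ES.2 ⟨h.mul_mem_TS ht hs, fun x => ⟨_, (h.vv_mul (TS.dl hs) x).symm⟩⟩
  · intro τ hτ
    obtain ⟨u, hu⟩ := (mem_ES.1 hτ).2 (t.root, none)
    obtain ⟨s, h1, h2, -⟩ := h.lift ht hG hτ (t.root, none) u hu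
    exact ⟨s, h1, h2⟩

/-- sections of the kernel and of the range have complementary dimensions -/
theorem HM.finrank_add [IsAlgClosed k] [Fintype B] {t : Tr k J io} {P : t.Vx → Matrix B A k[X]}
    (ht : t.OK) (h : HM kk' kk M t P) (hG : VG kk t fun y => LinearMap.ker (M y).mulVecLin) :
    Module.finrank k (ES kk t fun y => LinearMap.ker (M y).mulVecLin) +
      Module.finrank k (ES kk' t fun y => LinearMap.range (M y).mulVecLin) =
      ∑ a, (dot (kk a) t.deg + 1) := by
  have := finite_TS kk t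
  rw [← finrank_TS kk ht, ← h.map_TS ht hG,
    ← LinearMap.finrank_range_add_finrank_ker ((mulL t P).domRestrict (TS kk t)),
    LinearMap.range_domRestrict, add_comm]
  congr 1
  have h1 : (ES kk t fun y => LinearMap.ker (M y).mulVecLin) =
      (LinearMap.ker ((mulL t P).domRestrict (TS kk t))).map (TS kk t).subtype := by
    ext s
    rw [h.mem_ES_ker]
    constructor
    · rintro ⟨h1, h2⟩; exact ⟨⟨s, h1⟩, h2, rfl⟩
    · rintro ⟨u, h1, rfl⟩; exact ⟨u.2, h1⟩
  rw [h1, Submodule.finrank_map_subtype_eq]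

/-- the range of a matrix on `⊕ O(kk a)` is generated -/
theorem HM.vg_range {t : Tr k J io} {P : t.Vx → Matrix B A k[X]} (h : HM kk' kk M t P) :
    VG kk' t fun y => LinearMap.range (M y).mulVecLin := fun v => by
  have := gen_of_Rg (d := vdz kk t v) (fun a => Int.natCast_nonneg _) (h v).1
  rwa [h.rg_eq] at this

/-- splitting of a generated kernel on every vertex -/
theorem HM.exists_split [Infinite k] {t : Tr k J io} {P : t.Vx → Matrix B A k[X]}
    (h : HM kk' kk M t P) (hG : VG kk t fun y => LinearMap.ker (M y).mulVecLin) {c : ℕ}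
    (hc : ∀ x, Module.finrank k (LinearMap.ker (M (t.ev x)).mulVecLin) = c) (v : t.Vx) :
    ∃ S : Split (vdz kk t v) (fun p => LinearMap.ker (M (t.ev (v, p))).mulVecLin) c,
      ∀ i, 0 ≤ S.α i := by
  have := Tree87.exists_split (h v).1 (by rw [h.kr_eq]; exact hG v)
  rw [h.kr_eq] at this
  obtain ⟨c', S, hS⟩ := this
  obtain rfl : c' = c := (S.finrank none).symm.trans (hc (v, none))
  exact ⟨S, hS⟩


end mat

end Crest.Agent.X262.Tree87
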